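import Vale.Agent.P097M.Defs

/-!
# P097M: the inequalities of Harnack and Caratheodory
-/

set_option linter.all false

noncomputable section

namespace Vale.Agent.P097M

open Filter Topology Set Metric

namespace Har

theorem key {F : ℂ → ℂ} {c : ℂ} {R : ℝ} (hd : DifferentiableOn ℂ F (ball c R))
    (hp : ∀ z ∈ ball c R, 0 ≤ (F z).re) {z : ℂ} (hz : z ∈ ball c R) {e : ℝ} (he : 0 < e) :
    ‖F c - F z‖ * R ≤ ‖z - c‖ * ‖2 * (((F c).re + e : ℝ) : ℂ) - (F c - F z)‖ := by
  have hR : 0 < R := pos_of_mem_ball hz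
  have hc := hp c (mem_ball_self hR)
  set M : ℝ := (F c).re + e with hM
  have ne : ∀ w ∈ ball c R, 2 * (M : ℂ) - (F c - F w) ≠ 0 := fun w hw h => by
    have h1 := congrArg Complex.re h
    have := hp w hw
    simp at h1
    linarith
  have d : DifferentiableOn ℂ (fun w => (F c - F w) / (2 * (M : ℂ) - (F c - F w))) (ball c R) :=
    (hd.const_sub _).div ((hd.const_sub _).const_sub _) ne
  have m : MapsTo (fun w => (F c - F w) / (2 * (M : ℂ) - (F c - F w))) (ball c R)
      (closedBall ((F c - F c) / (2 * (M : ℂ) - (F c - F c))) 1) := fun w hw => by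
    rw [sub_self, zero_div, mem_closedBall_zero_iff, norm_div,
      div_le_one (norm_pos_iff.2 (ne w hw)), ← sq_le_sq₀ (norm_nonneg _) (norm_nonneg _),
      Complex.sq_norm, Complex.sq_norm, Complex.normSq_apply, Complex.normSq_apply]
    have := hp w hw
    simp
    nlinarith
  have s := Complex.dist_le_div_mul_dist_of_mapsTo_ball d m hz
  simp only [sub_self, zero_div, dist_zero_right, norm_div, dist_eq_norm, sub_zero] at s
  rw [div_le_iff₀ (norm_pos_iff.2 (ne z hz))] at s
  have := mul_le_mul_of_nonneg_right s hR.le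
  refine this.trans (le_of_eq ?_)
  field_simp

theorem lim {a b k : ℝ} (hk : 0 ≤ k) (h : ∀ e : ℝ, 0 < e → a ≤ b + k * e) : a ≤ b := by
  refine le_of_forall_pos_le_add fun e he => (h (e / (k + 1)) (by positivity)).trans ?_
  have : k * (e / (k + 1)) ≤ e := by
    rw [← mul_div_assoc, div_le_iff₀ (by positivity)]
    nlinarith
  linarith

theorem re_le {G : ℂ} {M t R : ℝ} (ht : 0 ≤ t) (hR : t < R) (hG : G.re ≤ 2 * M)
    (h : ‖G‖ * R ≤ t * ‖2 * (M : ℂ) - G‖) : |G.re| * R ≤ t * (2 * M - G.re) := by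
  have h0 : 0 ≤ R := ht.trans hR.le
  have h1 := pow_le_pow_left₀ (by positivity) h 2
  rw [mul_pow, mul_pow, Complex.sq_norm, Complex.sq_norm, Complex.normSq_apply,
    Complex.normSq_apply] at h1
  simp at h1
  rw [← sq_le_sq₀ (by positivity) (mul_nonneg ht (by linarith)), mul_pow, mul_pow, sq_abs]
  have h2 : t ^ 2 ≤ R ^ 2 := by gcongr
  nlinarith [mul_nonneg (mul_self_nonneg G.im) (sub_nonneg.2 h2)]

end Har

open Har in
theorem har : S_HAR := by
  intro F c R hd hp z hz
  have hR : 0 < R := pos_of_mem_ball hz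
  have hc := hp c (mem_ball_self hR)
  have h0 := hp z hz
  have ht : ‖z - c‖ < R := by rwa [mem_ball, dist_eq_norm] at hz
  have t0 := norm_nonneg (z - c)
  have k := fun e (he : 0 < e) => re_le t0 ht (by simp; linarith) (key hd hp hz he)
  refine ⟨lim (k := 2 * ‖z - c‖) (by positivity) fun e he => ?_,
    lim (k := 2 * ‖z - c‖) (by positivity) fun e he => ?_,
    lim (k := 2 * ‖z - c‖) (by positivity) fun e he => ?_⟩
  · have h1 := k e he
    have h2 := mul_le_mul_of_nonneg_right (neg_le_abs (F c - F z).re) hR.le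
    simp only [Complex.sub_re] at h1 h2
    nlinarith
  · have h1 := k e he
    have h2 := mul_le_mul_of_nonneg_right (le_abs_self (F c - F z).re) hR.le
    simp only [Complex.sub_re] at h1 h2
    nlinarith
  · have h1 := key hd hp hz he
    have h2 := norm_sub_le (2 * (((F c).re + e : ℝ) : ℂ)) (F c - F z)
    rw [norm_mul, Complex.norm_real, Real.norm_of_nonneg (by linarith), Complex.norm_two] at h2
    rw [norm_sub_rev (F z)]
    nlinarith [mul_le_mul_of_nonneg_left h2 t0]

end Vale.Agent.P097M
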