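import Vale.Agent.P097Top.Defs
import Vale.Agent.P097N.Defs
import Vale.Agent.P097K.Box

/-!
# P097M: leaves that reach the depth `C u` give all moments (definitions and statements)
-/

set_option linter.all false

noncomputable section

namespace Vale.Agent.P097M

open Filter Topology Set Metric
open Vale.Agent.P097T (Strip)
open Vale.Agent.P097Top (Cur law)
open Vale.Agent.P097K (Lv Few)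

/-- a real leaf of step `u`, continued to the strip of half width `T` -/
structure Leaf (θ H : ℂ → ℂ) (r u T : ℝ) (Y : ℂ → ℂ) : Prop where
  d : DifferentiableOn ℂ Y (Strip T)
  mem : ∀ x ∈ Strip T, Y x ∈ Strip r
  per : ∀ x ∈ Strip T, Y (x + 1) = Y x + 1
  re : ∀ x : ℝ, (Y x).im = 0
  near : ∀ x : ℝ, ‖Y x - x‖ ≤ u
  law : ∀ x ∈ Strip T, law θ H (Y (x - u)) (Y x) (Y (x + u)) = 0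

/-- INPUT: small leaves reach the depth `C u` -/
def Eta (θ H : ℂ → ℂ) (r : ℝ) : Prop := ∃ C u₀ : ℝ, 0 ≤ C ∧ 0 < u₀ ∧ ∀ u : ℝ, 0 < u → u < u₀ →
  ∃ (v : ℝ) (Y : ℂ → ℂ), u / 2 ≤ v ∧ v ≤ u ∧ Leaf θ H r v (r - C * v) Y

/-- the squared size -/
def Gs (g Q : ℂ → ℂ) (y : ℂ) : ℝ := ‖g y‖ ^ 2 + ‖Q y‖

/-- OUTPUT: all moments, level by level -/
def Mom (r : ℝ) (g Q : ℂ → ℂ) : Prop := ∀ p : ℕ, ∃ C : ℝ, ∀ (k : ℕ) (l : ℝ), 1 ≤ l →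
  Few r {y | y ∈ Strip r ∧ l ≤ Gs g Q y * (r - |y.im|) ^ 2} k (C / l ^ p)

def Spec_H2 : Prop := ∀ (r c : ℝ) (θ H Q : ℂ → ℂ), Cur r c θ H Q → Eta θ H r → Mom r (deriv θ) Q

/-- the first order term of the speed of a leaf -/
def E1 (g Q : ℂ → ℂ) (y : ℂ) : ℂ := Q y + g y ^ 2 / 8

/-- the point with abscissa `η` and depth `s` -/
def pt (r η s : ℝ) : ℂ := ⟨η, r - s⟩

@[simp] theorem pt_re (r η s : ℝ) : (pt r η s).re = η := rfl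

@[simp] theorem pt_im (r η s : ℝ) : (pt r η s).im = r - s := rfl

theorem pt_eq (r η s : ℝ) : pt r η s = η + ((r : ℂ) - s) * Complex.I := by
  apply Complex.ext <;> simp

theorem pt_self (r : ℝ) (y : ℂ) : pt r y.re (r - y.im) = y := by
  apply Complex.ext <;> simp

structure GQ (r : ℝ) (g Q : ℂ → ℂ) : Prop where
  rpos : 0 < r
  dg : DifferentiableOn ℂ g (Strip r)
  dQ : DifferentiableOn ℂ Q (Strip r)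
  ode : ∀ y ∈ Strip r, deriv (deriv g) y = Q y * g y
  per : ∀ y ∈ Strip r, Gs g Q (y + 1) = Gs g Q y
  sym : ∀ y ∈ Strip r, Gs g Q ((starRingEnd ℂ) y) = Gs g Q y

/-- a calm disc -/
structure Cm (r : ℝ) (g Q : ℂ → ℂ) (y : ℂ) (ρ G : ℝ) : Prop where
  pos : 0 < ρ
  sub : ball y ρ ⊆ Strip r
  bd : ∀ z ∈ ball y ρ, Gs g Q z ≤ G ^ 2
  one : 1 ≤ G * ρ

/-- the law for two short chords -/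
def LawP (r : ℝ) (g Q : ℂ → ℂ) (Lw : ℂ → ℂ → ℂ → Prop) (CL : ℝ) : Prop :=
  ∀ (y a b : ℂ) (ρ G u : ℝ), Cm r g Q y ρ G → 0 < u → u * G ≤ 1 / 40 → ‖a - u‖ ≤ u / 4 →
    ‖b - u‖ ≤ u / 4 → Lw (y - a) y (y + b) →
    ‖deriv (E1 g Q) y‖ * u ^ 4 ≤ CL * (‖b - a‖ + G ^ 5 * u ^ 6) ∧
      ‖b - a‖ ≤ CL * (‖deriv (E1 g Q) y‖ * u ^ 4 + G ^ 5 * u ^ 6)

/-- the positive harmonic function of a leaf -/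
def PP (C u : ℝ) (Y : ℂ → ℂ) (x : ℂ) : ℝ := C * u - (Y x - x).im

/-- what is used of a leaf -/
structure LF (r C u : ℝ) (Lw : ℂ → ℂ → ℂ → Prop) (Y : ℂ → ℂ) : Prop where
  d : DifferentiableOn ℂ Y (Strip (r - C * u))
  pos : ∀ x : ℂ, 0 ≤ x.im → x.im < r - C * u → 0 ≤ PP C u Y x
  base : ∀ η : ℝ, ‖Y (pt r η (r / 2)) - pt r η (r / 2)‖ ≤ C * u ∧
    ‖deriv Y (pt r η (r / 2)) - 1‖ ≤ C * u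
  law : ∀ x ∈ Strip (r - C * u), Lw (Y (x - u)) (Y x) (Y (x + u))

/-- the law along a leaf -/
def LXP (r : ℝ) (g Q : ℂ → ℂ) (C u : ℝ) (Y : ℂ → ℂ) (C₂ : ℝ) : Prop :=
  ∀ (x : ℂ) (t ρ G : ℝ), t = r - x.im → t ≤ 2 * r / 3 → C * u ≤ t / 2 → u ≤ t / 8 →
    PP C u Y x ≤ t / 32 → Cm r g Q (Y x) ρ G → u * G ≤ 1 / 40 →
    ‖deriv (E1 g Q) (Y x)‖ ≤ C₂ * (PP C u Y x / (u ^ 2 * t ^ 2) + G ^ 5 * u ^ 2) ∧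
      ‖deriv (deriv Y) x‖ ≤
        C₂ * (u ^ 2 * ‖deriv (E1 g Q) (Y x)‖ + G ^ 5 * u ^ 4 + u ^ 2 * PP C u Y x / t ^ 4)

/-- the bound in the cone below the depth `τ` -/
def Cone (r : ℝ) (g Q : ℂ → ℂ) (ξ τ M : ℝ) : Prop := ∀ y : ℂ, τ ≤ r - y.im →
  r - y.im ≤ 3 * r / 4 → |y.re - ξ| ≤ 2 * (r - y.im) →
  (Gs g Q y * (r - y.im) ^ 2) ^ 2 * τ ≤ M ^ 4 * (r - y.im)

/-- the bound at the end of the columns -/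
def ColB (r : ℝ) (Y : ℂ → ℂ) (ξ τ B : ℝ) : Prop :=
  ∀ η : ℝ, |η - ξ| ≤ τ → ‖Y (pt r η (2 * τ)) - pt r η (2 * τ)‖ ≤ B

def Tent (r ξ τ T : ℝ) : Set ℂ :=
  {y | |y.re - ξ| ≤ τ / 2 ∧ τ / (8 * T) ≤ r - y.im ∧ r - y.im ≤ τ}

/-- the data in the tent, `T = n ^ 2` -/
structure TD (r : ℝ) (g Q : ℂ → ℂ) (lam C₄ : ℝ) (n : ℕ) (ξ τ M u : ℝ) (P : ℂ → ℝ) : Prop where
  nn : ∀ y ∈ Tent r ξ τ (n ^ 2), 0 ≤ P y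
  xi : ∀ y ∈ Tent r ξ τ (n ^ 2), ∀ ρ G : ℝ, Cm r g Q y ρ G → u * G ≤ 1 / 40 →
    ‖deriv (E1 g Q) y‖ ≤ C₄ * (P y / (u ^ 2 * (r - y.im) ^ 2) + G ^ 5 * u ^ 2)
  up : ∀ y ∈ Tent r ξ τ (n ^ 2), P y * (r - y.im) ≤ C₄ * τ * (u + u ^ 2 * M ^ 2 / τ)
  lo : ∀ y ∈ Tent r ξ τ (n ^ 2), ∀ η : ℝ, τ / (2 * n ^ 2) ≤ r - y.im →
    |η - y.re| ≤ τ / (8 * n ^ 2) →
    P y * (τ / (2 * n ^ 2)) ≤ C₄ * (r - y.im) * P (pt r η (τ / (2 * n ^ 2)))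
  sum : ∑ m ∈ Finset.range (n ^ 2), P (pt r (ξ + m * (lam * τ / n ^ 2)) (τ / (2 * n ^ 2))) ≤
    C₄ * n ^ 3 * (u + u ^ 2 * M ^ 2 / τ)

/-- smallness of the step -/
def Sm (c : ℝ) (n : ℕ) (τ M u : ℝ) : Prop := 0 < u ∧ u * (n : ℝ) ^ 4 ≤ c * τ ∧
  u ^ 2 * M ^ 2 * (n : ℝ) ^ 4 ≤ c * τ ^ 2 ∧ u ^ 2 * M ^ 3 ≤ c * τ ^ 2

/-- tent data for all small steps -/
def TDA (r : ℝ) (g Q : ℂ → ℂ) (lam C₄ c₄ u₀ : ℝ) : Prop :=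
  ∀ (n : ℕ) (ξ τ M u : ℝ), 1 ≤ n → 0 < τ → τ ≤ r / 4 → 1 ≤ M → Cone r g Q ξ τ M → u < u₀ →
    Sm c₄ n τ M u → ∃ P, TD r g Q lam C₄ n ξ τ M u P

/-- the bound in the inner tent -/
def SupB (r : ℝ) (g Q : ℂ → ℂ) (n : ℕ) (ξ τ B : ℝ) : Prop := ∀ y : ℂ, |y.re - ξ| ≤ 3 * τ / 8 →
  τ / (4 * n ^ 2) ≤ r - y.im → r - y.im ≤ 5 * τ / 4 → Gs g Q y * (r - y.im) ^ 2 ≤ B

/-- the bound of the sum over the children -/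
def SumB (r : ℝ) (g Q : ℂ → ℂ) (lam : ℝ) (n : ℕ) (ξ τ B : ℝ) : Prop := ∀ ys : ℕ → ℂ,
  (∀ m < n ^ 2, τ / (2 * n ^ 2) ≤ r - (ys m).im ∧ r - (ys m).im ≤ τ / n ^ 2 ∧
    |(ys m).re - (ξ + m * (lam * τ / n ^ 2))| ≤ lam * τ / n ^ 2) →
  ∑ m ∈ Finset.range (n ^ 2), Gs g Q (ys m) * (r - (ys m).im) ^ 2 ≤ B

/-- the inequality for the children -/
def CH (r : ℝ) (g Q : ℂ → ℂ) (lam : ℝ) : Prop := ∃ C₁ : ℝ, 1 ≤ C₁ ∧ ∀ ε : ℝ, 0 < ε →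
  ∃ (L : ℕ) (A τ₀ : ℝ), 1 ≤ L ∧ 0 < τ₀ ∧ ∀ ξ τ M : ℝ, 0 < τ → τ ≤ τ₀ → A ≤ M →
    Cone r g Q ξ τ M → SupB r g Q (2 ^ L) ξ τ (C₁ * M ^ 2) ∧
      SumB r g Q lam (2 ^ L) ξ τ (ε * 4 ^ L * M ^ 2)

/-! ## The rows -/

/-- 1201 -/
def S_GQ0 : Prop := ∀ (r c : ℝ) (θ H Q : ℂ → ℂ), Cur r c θ H Q → GQ r (deriv θ) Q

/-- 1202: the fourth coefficient of the slope function -/
def S_TAY : Prop := ∀ (θ h Q : ℂ → ℂ) (c : ℂ) (U : Set ℂ), P097N.Cv θ h Q c U → ∀ y ∈ U,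
  Tendsto (fun s : ℂ => (P097N.Ph θ h (y, y + s) + P097N.Ph θ h (y, y - s)) / s ^ 4) (𝓝[≠] 0)
    (𝓝 (-(deriv (E1 (deriv θ) Q) y) / 15))

/-- 1203 -/
def S_LAW : Prop := ∃ CL : ℝ, 1 ≤ CL ∧ ∀ (r c : ℝ) (θ H Q : ℂ → ℂ), Cur r c θ H Q →
  LawP r (deriv θ) Q (fun a b d => law θ H a b d = 0) CL

/-- 1204: Harnack and Caratheodory -/
def S_HAR : Prop := ∀ (F : ℂ → ℂ) (c : ℂ) (R : ℝ), DifferentiableOn ℂ F (ball c R) →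
  (∀ z ∈ ball c R, 0 ≤ (F z).re) → ∀ z ∈ ball c R,
    (F z).re * (R - ‖z - c‖) ≤ (R + ‖z - c‖) * (F c).re ∧
    (F c).re * (R - ‖z - c‖) ≤ (R + ‖z - c‖) * (F z).re ∧
    ‖F z - F c‖ * (R - ‖z - c‖) ≤ 2 * ‖z - c‖ * (F c).re

/-- 1205: sum of Poisson kernels -/
def S_SUM : Prop := ∀ (F : ℂ → ℂ) (c : ℂ) (R R' h a η₀ : ℝ) (n : ℕ) (z : ℕ → ℂ), R < R' → 0 < h →
  0 ≤ a → 0 < R → DifferentiableOn ℂ F (ball c R') → (∀ w ∈ ball c R', 0 ≤ (F w).re) →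
  (∀ i < n, (z i).re = η₀ + i * h ∧ h ≤ R - ‖z i - c‖ ∧ R ^ 2 - ‖z i - c‖ ^ 2 ≤ a) →
  ∑ i ∈ Finset.range n, (F (z i)).re ≤ 16 * a / h ^ 2 * (F c).re

/-- 1206: second differences -/
def S_SD : Prop := ∀ (f : ℂ → ℂ) (x s : ℂ) (ρ m : ℝ), DifferentiableOn ℂ f (ball x ρ) →
  (∀ z ∈ ball x ρ, ‖f z - f x‖ ≤ m) → ‖s‖ < ρ →
    ‖f (x + s) - f x‖ ≤ m * ‖s‖ / ρ ∧
    ‖f (x + s) + f (x - s) - 2 * f x‖ ≤ 2 * m * ‖s‖ ^ 2 / ρ ^ 2 ∧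
    ‖f (x + s) + f (x - s) - 2 * f x - s ^ 2 * deriv (deriv f) x‖ ≤ 10 * m * ‖s‖ ^ 4 / ρ ^ 4

/-- 1207: maximum principle on the upper half of the strip -/
def S_POS : Prop := ∀ (θ H Y : ℂ → ℂ) (r u T : ℝ), Leaf θ H r u T Y → T ≤ r →
  ∀ x : ℂ, 0 ≤ x.im → x.im < T → (Y x - x).im ≤ r - T

/-- 1208: the middle line -/
def S_BASE : Prop := ∀ r C : ℝ, 0 < r → 0 ≤ C → ∃ C' u₁ : ℝ, 0 ≤ C' ∧ 0 < u₁ ∧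
  ∀ (θ H Y : ℂ → ℂ) (u : ℝ), 0 < u → u < u₁ → Leaf θ H r u (r - C * u) Y →
    LF r C' u (fun a b d => law θ H a b d = 0) Y

/-- 1209 -/
def S_LX : Prop := ∀ CL : ℝ, 1 ≤ CL → ∃ C₂ : ℝ, 1 ≤ C₂ ∧
  ∀ (r C u : ℝ) (g Q Y : ℂ → ℂ) (Lw : ℂ → ℂ → ℂ → Prop), 0 < u → 0 ≤ C → LawP r g Q Lw CL →
    LF r C u Lw Y → LXP r g Q C u Y C₂

/-- 1210: integration along a vertical segment -/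
def S_INT : Prop := ∀ (E : ℂ → ℂ) (r η a b : ℝ) (ψ ψ' : ℝ → ℝ), a ≤ b →
  (∀ s ∈ Icc a b, DifferentiableAt ℂ E (pt r η s) ∧ HasDerivAt ψ (ψ' s) s ∧
    ‖deriv E (pt r η s)‖ ≤ ψ' s) → ‖E (pt r η a) - E (pt r η b)‖ ≤ ψ b - ψ a

/-- 1211: the column -/
def S_COL : Prop := ∀ r C C₂ : ℝ, 0 < r → 0 ≤ C → 1 ≤ C₂ → ∃ C₃ c₃ : ℝ, 1 ≤ C₃ ∧ 0 < c₃ ∧
  ∀ (g Q Y : ℂ → ℂ) (Lw : ℂ → ℂ → ℂ → Prop) (ξ τ M u : ℝ), GQ r g Q → LF r C u Lw Y →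
    LXP r g Q C u Y C₂ → 0 < u → 0 < τ → τ ≤ r / 4 → 1 ≤ M → Cone r g Q ξ τ M →
    u ^ 2 * M ^ 3 ≤ c₃ * τ ^ 2 → ColB r Y ξ τ (C₃ * (u + u ^ 2 * M ^ 2 / τ))

/-- 1212: the tent -/
def S_TD : Prop := ∀ C C₂ C₃ lam : ℝ, 0 ≤ C → 1 ≤ C₂ → 1 ≤ C₃ → 0 < lam → lam ≤ 1 / 8 →
  ∃ C₄ c₄ : ℝ, 1 ≤ C₄ ∧ 0 < c₄ ∧ ∀ (r : ℝ) (g Q Y : ℂ → ℂ) (Lw : ℂ → ℂ → ℂ → Prop) (n : ℕ)
    (ξ τ M u : ℝ), LF r C u Lw Y → LXP r g Q C u Y C₂ → 1 ≤ n → 0 < τ → τ ≤ r / 4 →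
    Sm c₄ n τ M u → ColB r Y ξ τ (C₃ * (u + u ^ 2 * M ^ 2 / τ)) →
    TD r g Q lam C₄ n ξ τ M u (PP C u Y)

/-- 1213: the size from `E1` -/
def S_GE : Prop := ∀ (r : ℝ) (g Q : ℂ → ℂ) (y : ℂ) (ρ G β : ℝ), GQ r g Q → Cm r g Q y ρ G →
  0 ≤ β → 128 * G ≤ β ^ 3 * ρ ^ 2 → Gs g Q y ≤ 19 * ‖E1 g Q y‖ + 2 * β ^ 2

/-- 1214: the maximum in the tent -/
def S_SUP : Prop := ∀ C₄ c₄ : ℝ, 1 ≤ C₄ → 0 < c₄ → ∃ C₁ : ℝ, 1 ≤ C₁ ∧ ∀ n : ℕ, 1 ≤ n → ∃ A : ℝ,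
  ∀ (r lam u₀ ξ τ M : ℝ) (g Q : ℂ → ℂ), GQ r g Q → TDA r g Q lam C₄ c₄ u₀ → 0 < τ → τ ≤ r / 4 →
    τ ≤ u₀ → A ≤ M → Cone r g Q ξ τ M → SupB r g Q n ξ τ (C₁ * M ^ 2)

/-- 1215: the sum over the children -/
def S_SUMK : Prop := ∀ C₄ c₄ C₁ ε : ℝ, 1 ≤ C₄ → 0 < c₄ → 1 ≤ C₁ → 0 < ε → ∃ (L : ℕ) (A : ℝ),
  1 ≤ L ∧ ∀ (r lam u₀ ξ τ M : ℝ) (g Q : ℂ → ℂ), GQ r g Q → 0 < lam → lam ≤ 1 / 8 →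
    TDA r g Q lam C₄ c₄ u₀ → 0 < τ → τ ≤ r / 4 → τ ≤ u₀ → A ≤ M → Cone r g Q ξ τ M →
    SupB r g Q (2 ^ L) ξ τ (C₁ * M ^ 2) → SumB r g Q lam (2 ^ L) ξ τ (ε * 4 ^ L * M ^ 2)

/-- 1216: the recursion for the moments -/
def S_REC : Prop := ∀ (ν : ℕ → ℤ → ℝ) (n₀ w : ℕ) (C₁ : ℝ), (∀ k i, 0 ≤ ν k i) →
  (∀ (k : ℕ) (i : ℤ), ν k (i + n₀ * 2 ^ k) = ν k i) → 1 ≤ C₁ →
  (∀ ε : ℝ, 0 < ε → ∃ (L k₀ : ℕ) (A : ℝ), 1 ≤ L ∧ ∀ k : ℕ, k₀ ≤ k → ∀ (i : ℤ) (M : ℝ), A ≤ M →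
    0 ≤ M → (∀ j ≤ k, ∀ m : ℤ, |m| ≤ w → 2 * ν j (i / 2 ^ (k - j) + m) ^ 2 ≤ M ^ 4 * 2 ^ (k - j)) →
    (∀ m < 2 ^ L, ν (k + L) (i * 2 ^ L + (m : ℕ)) ≤ C₁ * M ^ 2) ∧
      ∑ m ∈ Finset.range (2 ^ L), ν (k + L) (i * 2 ^ L + (m : ℕ)) ≤ ε * 2 ^ L * M ^ 2) →
  ∀ p : ℕ, ∃ C : ℝ, ∀ k : ℕ, ∑ i ∈ Finset.range (n₀ * 2 ^ k), ν k (i : ℕ) ^ (2 * p + 2) ≤ C * 2 ^ k

/-- 1217: boxes -/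
def S_FIN : Prop := ∀ (r : ℝ) (g Q : ℂ → ℂ) (n₀ : ℕ), GQ r g Q → 8 ≤ r * n₀ →
  CH r g Q (1 / (r * n₀)) → Mom r g Q

theorem Sm.mono {c c' τ M u v : ℝ} {n : ℕ} (h : Sm c n τ M u) (e : c ≤ c') (hτ : 0 < τ)
    (hM : 0 ≤ M) (v0 : 0 < v) (v1 : v ≤ u) : Sm c' n τ M v := by
  obtain ⟨-, a, b, d⟩ := h
  have e2 : v ^ 2 ≤ u ^ 2 := by gcongr
  refine ⟨v0, ?_, ?_, ?_⟩
  · calc _ ≤ u * (n : ℝ) ^ 4 := by gcongr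
      _ ≤ c * τ := a
      _ ≤ _ := by gcongr
  · calc _ ≤ u ^ 2 * M ^ 2 * (n : ℝ) ^ 4 := by gcongr
      _ ≤ c * τ ^ 2 := b
      _ ≤ _ := by gcongr
  · calc _ ≤ u ^ 2 * M ^ 3 := by gcongr
      _ ≤ c * τ ^ 2 := d
      _ ≤ _ := by gcongr

end Vale.Agent.P097M
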