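import Vale.Agent.P097M.Defs

/-!
# P097M: the maximum principle on the upper half of the strip (row 1207)
-/

set_option linter.all false

noncomputable section

namespace Vale.Agent.P097M

open Filter Topology Set Metric Complex
open Vale.Agent.P097T (Strip)

/-- 1207 -/
theorem pos : S_POS := by
  intro θ H Y r u T L hT x h0 h1
  have nf : ∀ z : ℂ, ‖exp (-I * (Y z - z))‖ = Real.exp (Y z - z).im := fun z => by
    rw [norm_exp]; simp
  have key : ∀ T', x.im < T' → T' < T → (Y x - x).im ≤ r - T' := by
    intro T' a b
    have p : 0 < T' := h0.trans_lt a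
    have sub : ∀ z : ℂ, 0 ≤ z.im → z.im ≤ T' → z ∈ Strip T := fun z c d => by
      show |z.im| < T
      rw [abs_of_nonneg c]; linarith
    have up : ∀ z : ℂ, 0 ≤ z.im → z.im ≤ T' → (Y z - z).im ≤ r - z.im := fun z c d => by
      have := (abs_lt.1 (show |(Y z).im| < r from L.mem z (sub z c d))).2
      rw [sub_im]; linarith
    have d : DifferentiableOn ℂ (fun z => exp (-I * (Y z - z))) (im ⁻¹' Icc 0 T') :=
      (((L.d.mono fun z hz => sub z hz.1 hz.2).sub differentiableOn_id).const_mul _).cexp
    have k := PhragmenLindelof.horizontal_strip (f := fun z => exp (-I * (Y z - z)))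
      (a := 0) (b := T') (C := Real.exp (r - T')) (z := x)
      (DifferentiableOn.diffContOnCl (d.mono (closure_minimal
        (preimage_mono Ioo_subset_Icc_self) (isClosed_Icc.preimage continuous_im))))
      ⟨0, div_pos Real.pi_pos (by linarith), 0, Asymptotics.IsBigO.of_bound (Real.exp r) (by
        rw [eventually_inf_principal]
        refine Eventually.of_forall fun z hz => ?_
        have := up z hz.1.le hz.2.le
        have := hz.1
        rw [nf]
        simp only [zero_mul, Real.exp_zero, norm_one, mul_one]
        exact Real.exp_le_exp.2 (by linarith))⟩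
      (fun z hz => by
        have e : z = (z.re : ℂ) := Complex.ext rfl hz
        rw [nf, sub_im, hz, e, L.re]
        exact Real.exp_le_exp.2 (by linarith))
      (fun z hz => by
        rw [nf]
        exact Real.exp_le_exp.2 ((up z (by linarith) hz.le).trans (by rw [hz])))
      h0 a.le
    rw [nf] at k
    exact Real.exp_le_exp.1 k
  refine le_of_forall_pos_le_add fun ε hε => ?_
  have := key (max (T - ε) ((x.im + T) / 2)) (lt_max_of_lt_right (by linarith))
    (max_lt (by linarith) (by linarith))
  have := le_max_left (T - ε) ((x.im + T) / 2)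
  linarith

end Vale.Agent.P097M
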