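import Vale.Agent.P097M.Defs

/-!
# P097M: the column (row 1211)
-/

set_option linter.all false

noncomputable section

namespace Vale.Agent.P097M

open Filter Topology Set Metric
open Vale.Agent.P097T (Strip)

namespace Col

theorem boot {f : ℝ → ℝ} {a b B : ℝ} (hc : ContinuousOn f (Icc a b)) (hb : f b ≤ B)
    (h : ∀ t ∈ Icc a b, (∀ s ∈ Icc t b, f s ≤ B) → f t < B) : ∀ t ∈ Icc a b, f t ≤ B := by
  have c : ContinuousOn (fun v => f (-v)) (Icc (-b) (-a)) :=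
    hc.comp continuous_neg.continuousOn fun v hv => ⟨by linarith [hv.2], by linarith [hv.1]⟩
  have k := IsClosed.Icc_subset_of_forall_mem_nhdsGT_of_Icc_subset (a := -b) (b := -a)
    (s := {v | f (-v) ≤ B})
    (by rw [inter_comm]; exact c.preimage_isClosed_of_isClosed isClosed_Icc isClosed_Iic)
    (by simpa using hb) (fun t ht hs => by
      have l : f (-t) < B := h (-t) ⟨by linarith [ht.2], by linarith [ht.1]⟩ fun s k => by
        have := hs (show -s ∈ Icc (-b) t from ⟨by linarith [k.2], by linarith [k.1]⟩)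
        simpa using this
      have e := ((c t (Ico_subset_Icc_self ht)).tendsto.eventually_lt_const l).filter_mono
        (nhdsWithin_le_of_mem (Icc_mem_nhdsGT_of_mem ht))
      exact e.mono fun v hv => hv.le)
  intro t ht
  have := k (show -t ∈ Icc (-b) (-a) from ⟨by linarith [ht.2], by linarith [ht.1]⟩)
  simpa using this

/-- the inverse square root -/
def R (s : ℝ) : ℝ := (√s)⁻¹

theorem R_pos {s : ℝ} (h : 0 < s) : 0 < R s := inv_pos.2 (Real.sqrt_pos.2 h)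

theorem R_sq {s : ℝ} (h : 0 < s) : s * R s ^ 2 = 1 := by
  rw [R, inv_pow, Real.sq_sqrt h.le, mul_inv_cancel₀ h.ne']

theorem R_le {s t : ℝ} (h : 0 < s) (e : s ≤ t) : R t ≤ R s :=
  inv_anti₀ (Real.sqrt_pos.2 h) (Real.sqrt_le_sqrt e)

theorem R_der {s : ℝ} (h : 0 < s) : HasDerivAt R (-(R s ^ 3) / 2) s := by
  have p := (Real.sqrt_pos.2 h).ne'
  refine ((Real.hasDerivAt_sqrt h.ne').fun_inv p).congr_deriv ?_
  rw [R]
  field_simp

theorem le_sq {a b : ℝ} (hb : 0 ≤ b) (h : a ^ 2 ≤ b ^ 2) : a ≤ b :=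
  (le_abs_self a).trans (abs_le_of_sq_le_sq h hb)

theorem open_strip (r : ℝ) : IsOpen (Strip r) :=
  isOpen_lt (continuous_abs.comp Complex.continuous_im) continuous_const

variable {r C C₂ ξ τ M u η t B e G : ℝ} {g Q Y : ℂ → ℂ}

theorem calm (cone : Cone r g Q ξ τ M) (τ0 : 0 < τ) (M1 : 1 ≤ M) (hη : |η - ξ| ≤ τ)
    (t1 : 2 * τ ≤ t) (t2 : t ≤ r / 2) {y : ℂ} (hy : ‖y - pt r η t‖ ≤ t / 4) (G0 : 0 ≤ G)
    (hG : G ^ 2 = 16 * M ^ 2 * R τ * R t ^ 3) : Cm r g Q y (t / 4) G := by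
  have t0 : 0 < t := by linarith
  have near : ∀ z ∈ ball y (t / 4), |z.re - η| ≤ t / 2 ∧ |z.im - (r - t)| ≤ t / 2 := by
    intro z hz
    have a : ‖z - pt r η t‖ ≤ t / 2 := by
      have b := norm_sub_le_norm_sub_add_norm_sub z y (pt r η t)
      have c : ‖z - y‖ < t / 4 := mem_ball_iff_norm.1 hz
      linarith
    exact ⟨(Complex.abs_re_le_norm (z - pt r η t)).trans a,
      (Complex.abs_im_le_norm (z - pt r η t)).trans a⟩
  have a1 := R_sq τ0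
  have a2 := R_sq t0
  have a3 := R_pos τ0
  have a4 := R_pos t0
  have a5 := R_le τ0 (show τ ≤ t by linarith)
  refine ⟨by linarith, fun z hz => ?_, fun z hz => ?_, ?_⟩
  · obtain ⟨p, q⟩ := abs_le.1 (near z hz).2
    show |z.im| < r
    exact abs_lt.2 ⟨by linarith, by linarith⟩
  · obtain ⟨p, q⟩ := abs_le.1 (near z hz).2
    obtain ⟨p', q'⟩ := abs_le.1 (near z hz).1
    obtain ⟨p'', q''⟩ := abs_le.1 hη
    have k := cone z (by linarith) (by linarith) (abs_le.2 ⟨by linarith, by linarith⟩)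
    obtain ⟨d, hd⟩ : ∃ d, d = r - z.im := ⟨_, rfl⟩
    rw [← hd] at k
    have d1 : t / 2 ≤ d := by linarith
    have d0 : 0 < d := by linarith
    generalize Gs g Q z = S at k
    have k1 : S ^ 2 * τ * d ^ 3 ≤ M ^ 4 :=
      le_of_mul_le_mul_right (by linarith) d0
    have k2 : S ^ 2 * τ * (t / 2) ^ 3 ≤ M ^ 4 := le_trans (by gcongr) k1
    refine le_sq (sq_nonneg G) ?_
    calc S ^ 2 = S ^ 2 * (τ * R τ ^ 2) * (t * R t ^ 2) ^ 3 := by rw [a1, a2]; ring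
      _ = S ^ 2 * τ * (t / 2) ^ 3 * (8 * R τ ^ 2 * R t ^ 6) := by ring
      _ ≤ M ^ 4 * (256 * R τ ^ 2 * R t ^ 6) := by gcongr; norm_num
      _ = (G ^ 2) ^ 2 := by rw [hG]; ring
  · refine le_sq (by positivity) ?_
    calc (1 : ℝ) ^ 2 = 1 ^ 2 * R t * R t ^ 3 * t ^ 2 := by
          linear_combination (-1 - t * R t ^ 2) * a2
      _ ≤ M ^ 2 * R τ * R t ^ 3 * t ^ 2 := by gcongr
      _ = (G * (t / 4)) ^ 2 := by rw [mul_pow, hG]; ring

theorem dE {y : ℂ} {ρ : ℝ} (H : GQ r g Q) (c : Cm r g Q y ρ G) :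
    ‖deriv (E1 g Q) y‖ ≤ 2 * G ^ 2 / ρ := by
  have b : ∀ z ∈ ball y ρ, ‖E1 g Q z‖ ≤ G ^ 2 := fun z hz => by
    refine le_trans ?_ (c.bd z hz)
    refine (norm_add_le _ _).trans ?_
    rw [norm_div, norm_pow, Gs]
    have : ‖(8 : ℂ)‖ = 8 := by simp
    rw [this]
    nlinarith [sq_nonneg ‖g z‖]
  refine Complex.norm_deriv_le_div_of_mapsTo_ball
    ((H.dQ.add ((H.dg.pow 2).div_const 8)).mono c.sub) (fun z hz => ?_) c.pos
  rw [mem_closedBall, dist_eq_norm]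
  have := norm_sub_le (E1 g Q z) (E1 g Q y)
  linarith [b z hz, b y (mem_ball_self c.pos)]

theorem second (H : GQ r g Q) (X : LXP r g Q C u Y C₂) (cone : Cone r g Q ξ τ M) (u0 : 0 < u)
    (τ0 : 0 < τ) (M1 : 1 ≤ M) (C0 : 0 ≤ C) (C1 : 1 ≤ C₂) (hη : |η - ξ| ≤ τ) (t1 : 2 * τ ≤ t)
    (t2 : t ≤ r / 2) (e0 : 0 < e) (he : e ≤ 1 / 160) (hM : u ^ 2 * M ^ 3 ≤ e ^ 2 * τ ^ 2)
    (hu : u ≤ e * τ) (hB : C * u + B ≤ τ / 16) (hY : ‖Y (pt r η t) - pt r η t‖ ≤ B) :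
    ‖deriv (deriv Y) (pt r η t)‖ ≤
      144 * C₂ * u ^ 2 * M ^ 2 * R τ * R t ^ 5 + C₂ * u ^ 2 * (C * u + B) * R t ^ 8 := by
  have t0 : 0 < t := by linarith
  have a1 := R_sq τ0
  have a2 := R_sq t0
  have a3 := R_pos τ0
  have a4 := R_pos t0
  have a5 := R_le τ0 (show τ ≤ t by linarith)
  have B0 : 0 ≤ B := (norm_nonneg _).trans hY
  have Cu : 0 ≤ C * u := by positivity
  obtain ⟨G, G0, hG⟩ : ∃ G : ℝ, 0 ≤ G ∧ G ^ 2 = 16 * M ^ 2 * R τ * R t ^ 3 :=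
    ⟨√_, Real.sqrt_nonneg _, Real.sq_sqrt (by positivity)⟩
  have cm := calm cone τ0 M1 hη t1 t2 (hY.trans (by linarith)) G0 hG
  have pp : PP C u Y (pt r η t) ≤ C * u + B := by
    have := (abs_le.1 ((Complex.abs_im_le_norm _).trans hY)).1
    unfold PP
    linarith
  have hM2 : u ^ 2 * M ^ 2 ≤ e ^ 2 * τ ^ 2 :=
    le_trans (mul_le_mul_of_nonneg_left (pow_le_pow_right₀ M1 (by norm_num)) (sq_nonneg u)) hM
  have uG : u * G ≤ 1 / 40 := by
    refine le_sq (by norm_num) ?_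
    calc (u * G) ^ 2 = 16 * (u ^ 2 * M ^ 2) * R τ * R t ^ 3 := by rw [mul_pow, hG]; ring
      _ ≤ 16 * (e ^ 2 * τ ^ 2) * R τ * R τ ^ 3 := by gcongr
      _ = 16 * e ^ 2 * (τ * R τ ^ 2) ^ 2 := by ring
      _ ≤ 16 * (1 / 160) ^ 2 * (τ * R τ ^ 2) ^ 2 := by gcongr
      _ = _ := by rw [a1]; norm_num
  have G3 : G ^ 3 * u ^ 2 ≤ R t ^ 2 := by
    refine le_sq (sq_nonneg _) ?_
    calc (G ^ 3 * u ^ 2) ^ 2 = (G ^ 2) ^ 3 * u ^ 4 := by ring
      _ = 4096 * (u ^ 2 * M ^ 3) ^ 2 * R τ ^ 3 * R t ^ 5 * R t ^ 4 := by rw [hG]; ring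
      _ ≤ 4096 * (e ^ 2 * τ ^ 2) ^ 2 * R τ ^ 3 * R τ ^ 5 * R t ^ 4 := by gcongr
      _ = 4096 * e ^ 4 * (τ * R τ ^ 2) ^ 4 * R t ^ 4 := by ring
      _ ≤ 4096 * (1 / 160) ^ 4 * (τ * R τ ^ 2) ^ 4 * R t ^ 4 := by gcongr
      _ ≤ _ := by rw [a1]; nlinarith [pow_pos a4 4]
  have k := (X (pt r η t) t (t / 4) G (by simp) (by linarith) (by linarith) (by nlinarith)
    (by linarith) cm uG).2
  have d1 : ‖deriv (E1 g Q) (Y (pt r η t))‖ ≤ 8 * G ^ 2 * R t ^ 2 := by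
    refine (dE H cm).trans (le_of_eq ?_)
    rw [div_eq_iff (by linarith)]
    linear_combination (-2 * G ^ 2) * a2
  have d2 : G ^ 5 * u ^ 4 ≤ u ^ 2 * G ^ 2 * R t ^ 2 := by
    calc G ^ 5 * u ^ 4 = u ^ 2 * G ^ 2 * (G ^ 3 * u ^ 2) := by ring
      _ ≤ _ := by gcongr
  have d3 : u ^ 2 * PP C u Y (pt r η t) / t ^ 4 ≤ u ^ 2 * (C * u + B) * R t ^ 8 := by
    rw [div_le_iff₀ (by positivity)]
    calc _ ≤ u ^ 2 * (C * u + B) := by gcongr
      _ = u ^ 2 * (C * u + B) * (t * R t ^ 2) ^ 4 := by rw [a2]; ring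
      _ = _ := by ring
  calc _ ≤ _ := k
    _ ≤ C₂ * (u ^ 2 * (8 * G ^ 2 * R t ^ 2) + u ^ 2 * G ^ 2 * R t ^ 2 +
        u ^ 2 * (C * u + B) * R t ^ 8) := by gcongr
    _ = _ := by rw [hG]; ring

/-- two integrations -/
theorem twice (I : S_INT) {c K₁ K₂ : ℝ} (t0 : 0 < t) (t2 : t ≤ r / 2) (c0 : 0 ≤ c) (k1 : 0 ≤ K₁)
    (k2 : 0 ≤ K₂)
    (d : ∀ s ∈ Icc t (r / 2), DifferentiableAt ℂ Y (pt r η s) ∧
      DifferentiableAt ℂ (deriv Y) (pt r η s) ∧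
      ‖deriv (deriv Y) (pt r η s)‖ ≤ K₁ * R s ^ 5 + K₂ * R s ^ 8)
    (b0 : ‖Y (pt r η (r / 2)) - pt r η (r / 2)‖ ≤ c) (b1 : ‖deriv Y (pt r η (r / 2)) - 1‖ ≤ c) :
    ‖Y (pt r η t) - pt r η t‖ ≤ c * (1 + r / 2) + 2 * K₁ * R t + K₂ * R t ^ 4 / 2 := by
  have p := R_pos (t0.trans_le t2)
  have one : ∀ s ∈ Icc t (r / 2),
      ‖deriv Y (pt r η s) - 1‖ ≤ c + K₁ * R s ^ 3 + K₂ * R s ^ 6 := by
    intro s hs
    have a := I (deriv Y) r η s (r / 2) (fun v => -(2 / 3 * K₁ * R v ^ 3) - 1 / 3 * K₂ * R v ^ 6)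
      (fun v => K₁ * R v ^ 5 + K₂ * R v ^ 8) hs.2 fun v hv => by
        have hv' : v ∈ Icc t (r / 2) := ⟨hs.1.trans hv.1, hv.2⟩
        have z := R_der (t0.trans_le hv'.1)
        refine ⟨(d v hv').2.1, (((z.fun_pow 3).const_mul _).fun_neg.fun_sub
          ((z.fun_pow 6).const_mul _)).congr_deriv ?_, (d v hv').2.2⟩
        norm_num
        ring
    have q := R_pos (t0.trans_le hs.1)
    have n := norm_sub_le_norm_sub_add_norm_sub (deriv Y (pt r η s)) (deriv Y (pt r η (r / 2))) 1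
    have w1 : 0 ≤ K₁ * R (r / 2) ^ 3 := by positivity
    have w2 : 0 ≤ K₂ * R (r / 2) ^ 6 := by positivity
    have w3 : 0 ≤ K₁ * R s ^ 3 := by positivity
    have w4 : 0 ≤ K₂ * R s ^ 6 := by positivity
    linarith
  have a := I (fun z => Y z - z) r η t (r / 2) (fun v => c * v - 2 * K₁ * R v - K₂ * R v ^ 4 / 2)
    (fun v => c + K₁ * R v ^ 3 + K₂ * R v ^ 6) t2 fun v hv => by
      have z := R_der (t0.trans_le hv.1)
      refine ⟨(d v hv).1.fun_sub differentiableAt_id, ((((hasDerivAt_id' v).const_mul c).fun_sub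
        (z.const_mul _)).fun_sub (((z.fun_pow 4).const_mul _).div_const 2)).congr_deriv ?_, ?_⟩
      · norm_num
        ring
      · rw [((d v hv).1.hasDerivAt.fun_sub (hasDerivAt_id' _)).deriv]
        exact one v hv
  have n := norm_sub_norm_le (Y (pt r η t) - pt r η t) (Y (pt r η (r / 2)) - pt r η (r / 2))
  have w1 : 0 ≤ K₁ * R (r / 2) := by positivity
  have w2 : 0 ≤ K₂ * R (r / 2) ^ 4 := by positivity
  have w3 : 0 ≤ c * t := by positivity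
  linarith

end Col

open Col

/-- 1211 -/
theorem col (I : S_INT) : S_COL := by
  intro r C C₂ r0 C0 C1
  obtain ⟨D, hD⟩ : ∃ D, D = C * (2 + r) + 288 * C₂ := ⟨_, rfl⟩
  have D1 : 0 ≤ C * (2 + r) := by positivity
  have D0 : 0 ≤ D := by linarith
  obtain ⟨e, he⟩ : ∃ e : ℝ, e = 1 / (160 * (C + 2 * (2 * D + 1) + C₂ + 1)) := ⟨_, rfl⟩
  have e0 : 0 < e := by rw [he]; positivity
  have e1 : e * (160 * (C + 2 * (2 * D + 1) + C₂ + 1)) = 1 := by
    rw [he]; exact one_div_mul_cancel (by positivity)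
  have e2 : 0 ≤ e * C := by positivity
  have e3 : 0 ≤ e * D := by positivity
  have e4 : 0 ≤ e * C₂ := by positivity
  have e5 : e ≤ 1 / 160 := by linarith
  refine ⟨2 * D + 1, e ^ 2, by linarith, by positivity, ?_⟩
  intro g Q Y Lw ξ τ M u H L X u0 τ0 τ1 M1 cone hM η hη
  have hM2 : u ^ 2 * M ^ 2 ≤ e ^ 2 * τ ^ 2 :=
    le_trans (mul_le_mul_of_nonneg_left (pow_le_pow_right₀ M1 (by norm_num)) (sq_nonneg u)) hM
  have hu2 : u ^ 2 ≤ e ^ 2 * τ ^ 2 :=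
    le_trans (le_mul_of_one_le_right (sq_nonneg u) (one_le_pow₀ M1)) hM2
  have hu : u ≤ e * τ := le_sq (by positivity) (by rw [mul_pow]; exact hu2)
  obtain ⟨w, hw⟩ : ∃ w, w = u ^ 2 * M ^ 2 / τ := ⟨_, rfl⟩
  have w0 : 0 ≤ w := by rw [hw]; positivity
  have w1 : w ≤ e * τ := by
    rw [hw, div_le_iff₀ τ0]
    calc _ ≤ e * e * τ ^ 2 := by rw [← sq]; exact hM2
      _ ≤ e * 1 * τ ^ 2 := by gcongr; linarith
      _ = _ := by ring
  rw [← hw]
  obtain ⟨B, hB⟩ : ∃ B, B = (2 * D + 1) * (u + w) := ⟨_, rfl⟩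
  rw [← hB]
  have B0 : 0 < B := by rw [hB]; positivity
  have B1 : C * u + B ≤ τ / 16 := by
    calc C * u + B ≤ C * (e * τ) + (2 * D + 1) * (e * τ + e * τ) := by rw [hB]; gcongr
      _ = (e * C + 2 * (2 * (e * D) + e)) * τ := by ring
      _ ≤ 1 / 16 * τ := by gcongr; linarith
      _ = _ := by ring
  have Cu : 0 ≤ C * u := by positivity
  have mem : ∀ s ∈ Icc (2 * τ) (r / 2), pt r η s ∈ Strip (r - C * u) := fun s hs => by
    show |r - s| < r - C * u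
    exact abs_lt.2 ⟨by linarith [hs.2], by linarith [hs.1]⟩
  have cp : Continuous fun s : ℝ => pt r η s := by
    simp only [pt_eq]; fun_prop
  have a1 := R_sq τ0
  have a3 := R_pos τ0
  have big : C * u * (1 + r / 2) + C * u / 4 + 288 * C₂ * w ≤ B / 2 := by
    have z1 : 0 ≤ C * u * r := by positivity
    have z2 : 0 ≤ C * (2 + r) * w := by positivity
    have z3 : 0 ≤ C₂ * u := by positivity
    rw [hB, hD]
    nlinarith
  refine boot (f := fun s => ‖Y (pt r η s) - pt r η s‖) (a := 2 * τ) (b := r / 2)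
    ((L.d.continuousOn.comp cp.continuousOn mem).sub cp.continuousOn).norm
    ((L.base η).1.trans ?_) (fun t ht h => ?_) (2 * τ) ⟨le_rfl, by linarith⟩
  · have z1 : 0 ≤ C * u * r := by positivity
    have z2 : 0 ≤ C₂ * w := by positivity
    linarith
  have t0 : 0 < t := by linarith [ht.1]
  have a4 := R_pos t0
  have a5 := R_le τ0 (show τ ≤ t by linarith [ht.1])
  have k := twice I (Y := Y) (η := η) (c := C * u) (K₁ := 144 * C₂ * u ^ 2 * M ^ 2 * R τ)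
    (K₂ := C₂ * u ^ 2 * (C * u + B)) t0 ht.2 Cu (by positivity) (by positivity)
    (fun s hs => by
      have hs' : s ∈ Icc (2 * τ) (r / 2) := ⟨ht.1.trans hs.1, hs.2⟩
      have n := (open_strip _).mem_nhds (mem s hs')
      exact ⟨L.d.differentiableAt n, (L.d.deriv (open_strip _)).differentiableAt n,
        second H X cone u0 τ0 M1 C0 C1 hη hs'.1 hs'.2 e0 e5 hM hu B1 (h s hs)⟩)
    (L.base η).1 (L.base η).2
  have z1 : 2 * (144 * C₂ * u ^ 2 * M ^ 2 * R τ) * R t ≤ 288 * C₂ * w := by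
    calc _ ≤ 2 * (144 * C₂ * u ^ 2 * M ^ 2 * R τ) * R τ := by gcongr
      _ = 288 * C₂ * w * (τ * R τ ^ 2) := by rw [hw]; field_simp; ring
      _ = _ := by rw [a1, mul_one]
  have z2 : C₂ * u ^ 2 * (C * u + B) * R t ^ 4 / 2 ≤ (C * u + B) / 4 := by
    calc _ ≤ C₂ * (e ^ 2 * τ ^ 2) * (C * u + B) * R τ ^ 4 / 2 := by gcongr
      _ = e * C₂ * e * (C * u + B) * (τ * R τ ^ 2) ^ 2 / 2 := by ring
      _ ≤ 1 * (1 / 2) * (C * u + B) * (τ * R τ ^ 2) ^ 2 / 2 := by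
          gcongr <;> linarith
      _ = _ := by rw [a1]; ring
  show ‖Y (pt r η t) - pt r η t‖ < B
  linarith

end Vale.Agent.P097M
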