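import Vale.Agent.P097M.All0
import Vale.Agent.P097M.Col

/-!
# P097M: the moment block, closed
-/

set_option linter.all false

namespace Vale.Agent.P097M

open Vale.Agent.P097Top (Cur law)

theorem h2 : Spec_H2 := h2c (col vint)

theorem supAll {r c : ℝ} {θ H Q : ℂ → ℂ} (K : Cur r c θ H Q) (E : Eta θ H r) :
    SupAll r (deriv θ) Q := supAllc (col vint) K E

end Vale.Agent.P097M
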