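import Vale.Agent.P097M.Defs
import Vale.Agent.P097E.PolyB1

/-!
# P097M, row 1201: the data of a curve
-/

set_option linter.all false

noncomputable section

namespace Vale.Agent.P097M

theorem gq0 : S_GQ0 := by
  intro r c θ H Q C
  have E := P097E.PB.fn_of_cur C
  refine ⟨E.r0, E.df, E.dq, E.ode, fun y hy => ?_, fun y hy => ?_⟩
  · unfold Gs
    rw [E.perf y hy, E.perq y hy]
  · unfold Gs
    rw [E.cjf y hy, E.cjq y hy, Complex.norm_conj, Complex.norm_conj]

end Vale.Agent.P097M
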