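import Vale.Agent.P097M.Defs

/-!
# P097M: from the inequality for the children to all moments (boxes)
-/

set_option linter.all false

noncomputable section

namespace Vale.Agent.P097M

open Filter Topology Set Metric
open Vale.Agent.P097T (Strip)
open Vale.Agent.P097K (Lv Few)

namespace Fin

/-- the mesh of level `k` -/
def hh (n₀ k : ℕ) : ℝ := (1 / 2) ^ k / n₀

/-- the box of level `k` -/
def Bx (r : ℝ) (n₀ k : ℕ) (i : ℤ) : Set ℂ :=
  {y | (r * (1 / 2) ^ (k + 1) ≤ r - y.im ∧ r - y.im ≤ r * (1 / 2) ^ k) ∧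
    |y.re - i * hh n₀ k| ≤ hh n₀ k}

variable {r : ℝ} {n₀ k : ℕ} {i : ℤ} {g Q : ℂ → ℂ}

theorem hh_pos (hn : 0 < n₀) (k : ℕ) : 0 < hh n₀ k := by unfold hh; positivity

theorem hh_add (n₀ j d : ℕ) : hh n₀ (j + d) * 2 ^ d = hh n₀ j := by
  have : (1 / 2 : ℝ) ^ d * 2 ^ d = 1 := by rw [← mul_pow]; norm_num
  unfold hh
  rw [pow_add]
  linear_combination (1 / 2 : ℝ) ^ j / n₀ * this

theorem hh_one (hn : 0 < n₀) (k : ℕ) : (n₀ : ℝ) * 2 ^ k * hh n₀ k = 1 := by
  have h1 := hh_add n₀ 0 k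
  have h2 : (n₀ : ℝ) ≠ 0 := by positivity
  rw [zero_add] at h1
  rw [mul_assoc, mul_comm _ (hh n₀ k), h1, hh, pow_zero]
  field_simp

theorem bx_sub (hr : 0 < r) : Bx r n₀ k i ⊆ Strip r := by
  rintro y ⟨⟨h1, h2⟩, -⟩
  have a : 0 < r * (1 / 2 : ℝ) ^ (k + 1) := by positivity
  have b : r * (1 / 2 : ℝ) ^ k ≤ r * 1 :=
    mul_le_mul_of_nonneg_left (pow_le_one₀ (by norm_num) (by norm_num)) hr.le
  show |y.im| < r
  rw [abs_lt]
  constructor <;> linarith

theorem bx_cpt : IsCompact (Bx r n₀ k i) := by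
  have : Bx r n₀ k i = Icc (i * hh n₀ k - hh n₀ k) (i * hh n₀ k + hh n₀ k) ×ℂ
      Icc (r - r * (1 / 2) ^ k) (r - r * (1 / 2) ^ (k + 1)) := by
    ext y
    simp only [Bx, Complex.mem_reProdIm, mem_Icc, mem_setOf_eq, abs_le]
    constructor
    · rintro ⟨⟨a, b⟩, c, d⟩
      exact ⟨⟨by linarith, by linarith⟩, by linarith, by linarith⟩
    · rintro ⟨⟨a, b⟩, c, d⟩
      exact ⟨⟨by linarith, by linarith⟩, by linarith, by linarith⟩
  rw [this]
  exact isCompact_Icc.reProdIm isCompact_Icc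

theorem bx_ne (hr : 0 < r) (hn : 0 < n₀) : (Bx r n₀ k i).Nonempty := by
  refine ⟨pt r (i * hh n₀ k) (r * (1 / 2) ^ k), ⟨?_, ?_⟩, ?_⟩
  · have : 0 < r * (1 / 2 : ℝ) ^ k := by positivity
    rw [pt_im, pow_succ]
    linarith
  · rw [pt_im]; linarith
  · rw [pt_re, sub_self, abs_zero]
    exact (hh_pos hn k).le

theorem bx_round (hn : 0 < n₀) {y : ℂ} (h1 : r * (1 / 2) ^ (k + 1) ≤ r - y.im)
    (h2 : r - y.im ≤ r * (1 / 2) ^ k) : ∃ i : ℤ, y ∈ Bx r n₀ k i := by
  have h0 := hh_pos hn k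
  refine ⟨round (y.re / hh n₀ k), ⟨h1, h2⟩, ?_⟩
  have e : y.re - round (y.re / hh n₀ k) * hh n₀ k =
      (y.re / hh n₀ k - round (y.re / hh n₀ k)) * hh n₀ k := by field_simp
  rw [e, abs_mul, abs_of_pos h0]
  nlinarith [abs_sub_round (y.re / hh n₀ k)]

theorem exists_max (h : GQ r g Q) (hn : 0 < n₀) (k : ℕ) (i : ℤ) : ∃ Y ∈ Bx r n₀ k i,
    ∀ y ∈ Bx r n₀ k i, Gs g Q y * (r - y.im) ^ 2 ≤ Gs g Q Y * (r - Y.im) ^ 2 := by
  refine bx_cpt.exists_isMaxOn (f := fun y => Gs g Q y * (r - y.im) ^ 2) (bx_ne h.rpos hn)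
    (ContinuousOn.mono (ContinuousOn.mul ?_ (by fun_prop)) (bx_sub h.rpos))
  exact (h.dg.continuousOn.norm.pow 2).add h.dQ.continuousOn.norm

end Fin

open Fin

theorem finm (hR : S_REC) : S_FIN := by
  intro r g Q n₀ h h8 ⟨C₁, hC₁, hCH⟩ p
  classical
  have hr := h.rpos
  have hn : 0 < n₀ := Nat.pos_of_ne_zero fun e => by
    rw [e] at h8
    norm_num at h8
  have hn' : (1 : ℝ) ≤ n₀ := by exact_mod_cast hn
  choose Y hY hM using exists_max h hn
  obtain ⟨ν, hν⟩ : ∃ ν : ℕ → ℤ → ℝ, ∀ k i, ν k i = Gs g Q (Y k i) * (r - (Y k i).im) ^ 2 :=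
    ⟨_, fun _ _ => rfl⟩
  have G0 : ∀ y, 0 ≤ Gs g Q y * (r - y.im) ^ 2 := fun y => by unfold Gs; positivity
  have hper : ∀ (k : ℕ) (i : ℤ), ν k (i + n₀ * 2 ^ k) = ν k i := by
    intro k i
    have e : ((i + n₀ * 2 ^ k : ℤ) : ℝ) * hh n₀ k = i * hh n₀ k + 1 := by
      push_cast
      rw [add_mul, hh_one hn]
    rw [hν, hν]
    apply le_antisymm
    · have m : Y k (i + n₀ * 2 ^ k) - 1 ∈ Bx r n₀ k i := by
        obtain ⟨a, b⟩ := hY k (i + n₀ * 2 ^ k)
        rw [e] at b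
        refine ⟨by simpa using a, ?_⟩
        rw [Complex.sub_re, Complex.one_re, sub_sub, add_comm (1 : ℝ)]
        exact b
      have := hM k i _ m
      rw [← h.per _ (bx_sub hr m), sub_add_cancel] at this
      simpa using this
    · have m : Y k i + 1 ∈ Bx r n₀ k (i + n₀ * 2 ^ k) := by
        obtain ⟨a, b⟩ := hY k i
        refine ⟨by simpa using a, ?_⟩
        rw [e, Complex.add_re, Complex.one_re, add_sub_add_right_eq_sub]
        exact b
      have := hM k _ _ m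
      rw [h.per _ (bx_sub hr (hY k i))] at this
      simpa using this
  obtain ⟨C, hC⟩ := hR ν n₀ ⌈2 * (r * n₀) + 2⌉₊ C₁ (fun k i => by rw [hν]; exact G0 _) hper hC₁
    (fun ε hε => by
      obtain ⟨L, A, τ₀, hL, hτ₀, H⟩ := hCH ε hε
      obtain ⟨k₀, hk₀⟩ := exists_pow_lt_of_lt_one (div_pos hτ₀ hr) (by norm_num : (1 / 2 : ℝ) < 1)
      refine ⟨2 * L, k₀, A, by omega, fun k hk i M hA hM0 hc => ?_⟩
      have τ0 : 0 < r * (1 / 2 : ℝ) ^ k := by positivity
      have τ1 : r * (1 / 2 : ℝ) ^ k ≤ τ₀ := by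
        have := pow_le_pow_of_le_one (a := (1 / 2 : ℝ)) (by norm_num) (by norm_num) hk
        rw [lt_div_iff₀' hr] at hk₀
        nlinarith
      have cone : Cone r g Q (i * hh n₀ k) (r * (1 / 2) ^ k) M := by
        intro y y1 y2 y3
        obtain ⟨j, j1, j2⟩ := exists_nat_pow_near_of_lt_one (x := (r - y.im) / r)
          (y := (1 / 2 : ℝ)) (div_pos (by linarith) hr) ((div_le_one hr).2 (by linarith))
          (by norm_num) (by norm_num)
        rw [lt_div_iff₀' hr] at j1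
        rw [div_le_iff₀' hr] at j2
        have jk : j ≤ k := by
          have := le_of_mul_le_mul_left (y1.trans j2) hr
          exact (pow_le_pow_iff_right_of_lt_one₀ (by norm_num) (by norm_num)).1 this
        obtain ⟨d, rfl⟩ := Nat.exists_eq_add_of_le jk
        obtain ⟨i', hi'⟩ := bx_round hn j1.le j2
        have h0 := hh_pos hn j
        have h1 := hh_pos hn (j + d)
        have e1 := hh_add n₀ j d
        have hw : |i' - i / 2 ^ d| ≤ (⌈2 * (r * n₀) + 2⌉₊ : ℕ) := by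
          have p2 : (0 : ℤ) < 2 ^ d := by positivity
          have a1 : ((i / 2 ^ d : ℤ) : ℝ) * 2 ^ d ≤ i := by
            exact_mod_cast Int.ediv_mul_le i p2.ne'
          have a2 : (i : ℝ) < ((i / 2 ^ d : ℤ) + 1) * 2 ^ d := by
            exact_mod_cast Int.lt_ediv_add_one_mul_self i p2
          have a3 : ((i / 2 ^ d : ℤ) : ℝ) * hh n₀ j ≤ i * hh n₀ (j + d) := by
            rw [← e1]; nlinarith
          have a4 : i * hh n₀ (j + d) ≤ ((i / 2 ^ d : ℤ) + 1) * hh n₀ j := by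
            rw [← e1]; nlinarith
          have a5 : r * (1 / 2) ^ j = r * n₀ * hh n₀ j := by unfold hh; field_simp
          have a6 := abs_le.1 hi'.2
          have a7 := abs_le.1 y3
          have a8 : |((i' - i / 2 ^ d : ℤ) : ℝ)| ≤ 2 * (r * n₀) + 2 := by
            rw [Int.cast_sub, abs_le]
            constructor <;> refine le_of_mul_le_mul_right ?_ h0 <;> linarith
          exact_mod_cast a8.trans (Nat.le_ceil _)
        have b1 := hc j jk _ hw
        rw [Nat.add_sub_cancel_left, add_sub_cancel, hν] at b1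
        have b2 := pow_le_pow_left₀ (G0 y) (hM j i' y hi') 2
        have b3 : (2 : ℝ) ^ d * (r * (1 / 2) ^ (j + d)) = 2 * (r * (1 / 2) ^ (j + 1)) := by
          have : (1 / 2 : ℝ) ^ d * 2 ^ d = 1 := by rw [← mul_pow]; norm_num
          rw [pow_add, pow_succ]
          linear_combination r * (1 / 2 : ℝ) ^ j * this
        have b4 : 0 ≤ M ^ 4 := by positivity
        have b5 := mul_le_mul_of_nonneg_right ((mul_le_mul_of_nonneg_left b2 two_pos.le).trans b1)
          τ0.le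
        rw [mul_assoc (M ^ 4), b3] at b5
        nlinarith
      obtain ⟨s1, s2⟩ := H _ _ M τ0 τ1 hA cone
      have n2 : (((2 ^ L : ℕ) : ℝ)) ^ 2 = 2 ^ (2 * L) := by push_cast; ring
      have n1 : (1 : ℝ) ≤ 2 ^ (2 * L) := one_le_pow₀ (by norm_num)
      have e1 := hh_add n₀ k (2 * L)
      have e2 : 1 / (r * n₀) * (r * (1 / 2) ^ k) / 2 ^ (2 * L) = hh n₀ (k + 2 * L) := by
        rw [div_eq_iff (by positivity), e1, hh]
        field_simp
      have e3 : r * (1 / 2 : ℝ) ^ k / 2 ^ (2 * L) = r * (1 / 2) ^ (k + 2 * L) := by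
        rw [pow_add, one_div_pow 2 (2 * L)]
        field_simp
      have key : ∀ m : ℕ, r * (1 / 2) ^ k / (2 * 2 ^ (2 * L)) ≤
          r - (Y (k + 2 * L) (i * 2 ^ (2 * L) + m)).im ∧
          r - (Y (k + 2 * L) (i * 2 ^ (2 * L) + m)).im ≤ r * (1 / 2) ^ k / 2 ^ (2 * L) ∧
          |(Y (k + 2 * L) (i * 2 ^ (2 * L) + m)).re - (i * hh n₀ k + m * hh n₀ (k + 2 * L))| ≤
            hh n₀ (k + 2 * L) := by
        intro m
        obtain ⟨⟨a, b⟩, c⟩ := hY (k + 2 * L) (i * 2 ^ (2 * L) + m)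
        refine ⟨?_, by rwa [e3], ?_⟩
        · rw [mul_comm (2 : ℝ), ← div_div, e3]
          rw [pow_succ] at a
          linarith
        · rw [← e1]
          push_cast at c
          rwa [add_mul, mul_assoc, mul_comm _ (hh n₀ (k + 2 * L))] at c
      constructor
      · intro m hm
        obtain ⟨a, b, c⟩ := key m
        have h1 := hh_pos hn (k + 2 * L)
        have m1 : (m : ℝ) + 1 ≤ 2 ^ (2 * L) := by exact_mod_cast hm
        have m0 : (0 : ℝ) ≤ m := Nat.cast_nonneg m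
        have a5 : r * (1 / 2) ^ k = r * n₀ * hh n₀ k := by unfold hh; field_simp
        have h0 := hh_pos hn k
        rw [hν]
        refine s1 _ ?_ ?_ ?_
        · rw [abs_le] at c ⊢
          constructor <;> nlinarith
        · rw [n2]
          refine le_trans ?_ a
          gcongr
          norm_num
        · linarith [div_le_self τ0.le n1]
      · have := s2 (fun m => Y (k + 2 * L) (i * 2 ^ (2 * L) + m)) fun m _ => by
          rw [n2, e2]
          exact key m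
        rw [← pow_mul, mul_comm L, show (4 : ℝ) ^ L = 2 ^ (2 * L) by rw [pow_mul]; norm_num] at this
        simpa only [hν] using this) p
  refine ⟨C, fun k l hl => ?_⟩
  let J := (Finset.range (n₀ * 2 ^ k)).filter fun i : ℕ => l ≤ ν k i
  refine ⟨J.image fun i : ℕ => i * hh n₀ k, ?_, fun y hy hv => ?_⟩
  · have a1 : (J.card : ℝ) * l ^ p ≤ C * 2 ^ k := by
      refine le_trans ?_ (hC k)
      rw [← nsmul_eq_mul]
      refine (Finset.card_nsmul_le_sum J (fun i : ℕ => ν k i ^ (2 * p + 2)) _ fun i hi => ?_).trans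
        (Finset.sum_le_sum_of_subset_of_nonneg (Finset.filter_subset _ _) fun i _ _ => by
          rw [hν]; exact pow_nonneg (G0 _) _)
      exact (pow_le_pow_right₀ hl (by omega)).trans
        (pow_le_pow_left₀ (by linarith) (Finset.mem_filter.1 hi).2 _)
    have a2 : ((J.image fun i : ℕ => i * hh n₀ k).card : ℝ) ≤ J.card :=
      Nat.cast_le.2 Finset.card_image_le
    have a3 : (0 : ℝ) < l ^ p := by positivity
    rw [le_div_iff₀ a3, one_div_pow, mul_one_div, div_mul_eq_mul_div, div_le_iff₀ (by positivity)]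
    exact (mul_le_mul_of_nonneg_right a2 a3.le).trans a1
  · obtain ⟨y', e1, e2, e3⟩ : ∃ y' : ℂ, y'.re = y.re ∧ y'.im = |y.im| ∧ Gs g Q y' = Gs g Q y := by
      rcases le_total 0 y.im with e | e
      · exact ⟨y, rfl, (abs_of_nonneg e).symm, rfl⟩
      · exact ⟨(starRingEnd ℂ) y, rfl, by rw [abs_of_nonpos e, Complex.conj_im], h.sym y hy.1⟩
    obtain ⟨i', hi'⟩ := bx_round (k := k) (r := r) (y := y') hn (by rw [e2]; exact hv.1.le)
      (by rw [e2]; exact hv.2)
    have b1 := hM k i' y' hi'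
    rw [← hν, e2, e3] at b1
    have N0 : (0 : ℤ) < n₀ * 2 ^ k := by positivity
    have b2 := Int.emod_nonneg i' N0.ne'
    have b3 := Int.emod_lt_of_pos i' N0
    have b4 := Int.emod_add_ediv_mul i' (n₀ * 2 ^ k)
    have b5 := Function.Periodic.int_mul (f := ν k) (hper k) (i' / (n₀ * 2 ^ k))
      (i' % (n₀ * 2 ^ k))
    rw [Int.cast_id, b4] at b5
    obtain ⟨i, hi⟩ := Int.eq_ofNat_of_zero_le b2
    rw [hi] at b3 b4 b5
    refine ⟨i * hh n₀ k, Finset.mem_image.2 ⟨i, Finset.mem_filter.2 ⟨Finset.mem_range.2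
      (by exact_mod_cast b3), by rw [← b5]; exact hy.2.trans b1⟩, rfl⟩, i' / (n₀ * 2 ^ k), ?_⟩
    have b6 : (i' : ℝ) * hh n₀ k = i * hh n₀ k + (i' / (n₀ * 2 ^ k) : ℤ) := by
      have := congrArg (Int.cast : ℤ → ℝ) b4
      rw [Int.cast_add, Int.cast_mul] at this
      rw [← this, add_mul, mul_assoc]
      push_cast
      rw [hh_one hn, mul_one]
    have b7 := hi'.2
    rw [e1, b6, add_comm, ← sub_sub] at b7
    exact b7.trans (div_le_self (by positivity) hn')

end Vale.Agent.P097M
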