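import Vale.Agent.P097M.Defs

/-!
# P097M: the size from `E1`
-/

set_option linter.all false

noncomputable section

namespace Vale.Agent.P097M

open Filter Topology Set Metric

theorem ge : S_GE := by
  intro r g Q y ρ G β H C b0 hb
  have ρ0 := C.pos
  have G0 : 0 < G := (mul_pos_iff_of_pos_right ρ0).1 (one_pos.trans_le C.one)
  have sub : closedBall y (ρ / 2) ⊆ ball y ρ := closedBall_subset_ball (by linarith)
  have h1 := Complex.norm_iteratedDeriv_le_of_forall_mem_sphere_norm_le 2 (half_pos ρ0)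
    ((H.dg.mono (C.sub)).diffContOnCl_ball sub) (C := G) fun z hz =>
      le_of_pow_le_pow_left₀ two_ne_zero G0.le ((le_add_of_nonneg_right (norm_nonneg (Q z))).trans
        (C.bd z (sub (sphere_subset_closedBall hz))))
  rw [iteratedDeriv_succ, iteratedDeriv_one, H.ode y (C.sub (mem_ball_self ρ0)),
    le_div_iff₀ (by positivity)] at h1
  have h2 : ‖Q y * g y‖ ≤ β ^ 3 / 16 := by
    refine le_of_mul_le_mul_right ?_ (pow_pos ρ0 2)
    norm_num [Nat.factorial] at h1 ⊢
    nlinarith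
  have h3 : ‖g y‖ ^ 3 / 8 ≤ ‖E1 g Q y‖ * ‖g y‖ + β ^ 3 / 16 := by
    have e : g y ^ 3 / 8 = E1 g Q y * g y - Q y * g y := by rw [E1]; ring
    have := norm_sub_le (E1 g Q y * g y) (Q y * g y)
    rw [← e, norm_div, norm_pow, norm_mul, Complex.norm_ofNat] at this
    linarith
  have h4 : ‖Q y‖ ≤ ‖E1 g Q y‖ + ‖g y‖ ^ 2 / 8 := by
    have e : Q y = E1 g Q y - g y ^ 2 / 8 := by rw [E1]; ring
    have := norm_sub_le (E1 g Q y) (g y ^ 2 / 8)
    rwa [← e, norm_div, norm_pow, Complex.norm_ofNat] at this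
  have x0 := norm_nonneg (g y)
  have e0 := norm_nonneg (E1 g Q y)
  unfold Gs
  rcases le_total (‖g y‖ ^ 2) (16 * ‖E1 g Q y‖) with h | h
  · nlinarith [sq_nonneg β]
  · have h5 : ‖g y‖ ≤ β := le_of_pow_le_pow_left₀ three_ne_zero b0
      (by nlinarith [mul_le_mul_of_nonneg_right h x0])
    nlinarith [pow_le_pow_left₀ x0 h5 2]

end Vale.Agent.P097M
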