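import Vale.Agent.P097M.Defs

/-!
# P097M: integration along a vertical segment (row 1210)
-/

set_option linter.all false

noncomputable section

namespace Vale.Agent.P097M

open Filter Topology Set Metric

namespace IntA

theorem pt_deriv (r η s : ℝ) : HasDerivAt (fun s : ℝ => pt r η s) (-Complex.I) s := by
  have h : HasDerivAt (fun s : ℝ => (η : ℂ) + ((r : ℂ) - (s : ℂ)) * Complex.I) (-1 * Complex.I) s :=
    (((Complex.ofRealCLM.hasDerivAt (x := s)).const_sub (r : ℂ)).mul_const Complex.I).const_add _
  rw [neg_one_mul] at h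
  exact h.congr_of_eventuallyEq (Eventually.of_forall fun s => pt_eq r η s)

end IntA

theorem vint : S_INT := by
  intro E r η a b ψ ψ' hab h
  have hd : ∀ s ∈ Icc a b, HasDerivAt (fun s : ℝ => E (pt r η s) - E (pt r η a))
      ((-Complex.I) • deriv E (pt r η s)) s := fun s hs =>
    (((h s hs).1.hasDerivAt.hasFDerivAt.restrictScalars ℝ).comp_hasDerivAt s
      (IntA.pt_deriv r η s)).sub_const _
  have h1 := image_norm_le_of_norm_deriv_right_le_deriv_boundary'
    (f := fun s : ℝ => E (pt r η s) - E (pt r η a))
    (f' := fun s => (-Complex.I) • deriv E (pt r η s)) (a := a) (b := b)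
    (fun s hs => (hd s hs).continuousAt.continuousWithinAt)
    (fun s hs => (hd s (Ico_subset_Icc_self hs)).hasDerivWithinAt)
    (B := fun s => ψ s - ψ a) (B' := ψ') (by simp)
    (fun s hs => ((h s hs).2.1.sub_const _).continuousAt.continuousWithinAt)
    (fun s hs => ((h s (Ico_subset_Icc_self hs)).2.1.sub_const _).hasDerivWithinAt)
    (fun s hs => by
      rw [norm_smul, norm_neg, Complex.norm_I, one_mul]
      exact (h s (Ico_subset_Icc_self hs)).2.2)
    (right_mem_Icc.2 hab)
  rwa [norm_sub_rev] at h1

end Vale.Agent.P097M
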