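import Vale.Agent.P097M.Defs
import Vale.Agent.P097N.Bridge
import Vale.Agent.P097N.K
import Vale.Agent.P097N.Col
import Vale.Agent.P097N.Even

/-!
# P097M, row 1203: the law for two short chords
-/

set_option linter.all false

noncomputable section

namespace Vale.Agent.P097M

open Filter Topology Set Metric
open Vale.Agent.P097T (Strip)
open Vale.Agent.P097Top (Cur law)
open Vale.Agent.P097N (Ph k1 kk EE Cv)

namespace LawL

theorem cau {f : ℂ → ℂ} {c z : ℂ} {R M t : ℝ} (hd : DifferentiableOn ℂ f (ball c R))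
    (hb : ∀ w ∈ ball c R, ‖f w‖ ≤ M) (ht : 0 < t) (hz : t + ‖z - c‖ < R) :
    ‖deriv f z‖ ≤ M / t := by
  have hs : closedBall z t ⊆ ball c R := closedBall_subset_ball' (by rwa [dist_eq_norm])
  exact Complex.norm_deriv_le_of_forall_mem_sphere_norm_le ht (hd.diffContOnCl_ball hs)
    fun w hw => hb w (hs (sphere_subset_closedBall hw))

theorem lip {f : ℂ → ℂ} {r κ t : ℝ} (ht : 0 < t) (hr : 3 * t ≤ r) (hκ : 0 ≤ κ)
    (hk : 27 * κ * t ^ 2 ≤ 1 / 2) (hd : ∀ s, s ≠ 0 → ‖s‖ < r → DifferentiableAt ℂ f s)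
    (hb : ∀ s, ‖s‖ < r → ‖f s - s‖ ≤ κ * ‖s‖ ^ 3) {a b : ℂ} (ha : ‖a‖ ≤ t) (hb' : ‖b‖ ≤ t) :
    ‖(f a - a) - (f b - b)‖ ≤ 1 / 2 * ‖a - b‖ := by
  have r0 : 0 < r := by linarith
  have c : ContinuousAt (fun s => f s - s) 0 := by
    have e : f 0 - 0 = 0 := by simpa using hb 0 (by simpa using r0)
    show Tendsto _ _ (𝓝 (f 0 - 0))
    rw [e]
    refine squeeze_zero_norm' (a := fun s : ℂ => κ * ‖s‖ ^ 3) ?_
      (Continuous.tendsto' (by fun_prop) _ _ (by simp))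
    filter_upwards [ball_mem_nhds (0 : ℂ) r0] with s hs using hb s (mem_ball_zero_iff.1 hs)
  have d : DifferentiableOn ℂ (fun s => f s - s) (ball 0 (3 * t)) :=
    (Complex.differentiableOn_compl_singleton_and_continuousAt_iff
      (ball_mem_nhds _ (by linarith))).1 ⟨fun s hs => ((hd s hs.2
        ((mem_ball_zero_iff.1 hs.1).trans_le hr)).sub differentiableAt_id).differentiableWithinAt, c⟩
  refine (convex_closedBall (0 : ℂ) t).norm_image_sub_le_of_norm_deriv_le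
    (f := fun s => f s - s) (fun z hz => d.differentiableAt (isOpen_ball.mem_nhds
      (closedBall_subset_ball (by linarith) hz))) (fun z hz => ?_) (mem_closedBall_zero_iff.2 hb')
    (mem_closedBall_zero_iff.2 ha)
  have h1 := mem_closedBall_zero_iff.1 hz
  refine (cau (M := κ * (3 * t) ^ 3) d (fun w hw => ?_) ht (by rw [sub_zero]; linarith)).trans ?_
  · have h2 := mem_ball_zero_iff.1 hw
    refine (hb w (h2.trans_le hr)).trans ?_
    gcongr
  · rw [div_le_iff₀ ht]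
    nlinarith [mul_le_mul_of_nonneg_right hk ht.le]

theorem quart {f : ℂ → ℂ} {r κ : ℝ} {k₀ : ℂ} (hr : 0 < r) (hκ : 0 ≤ κ)
    (hd : ∀ s, s ≠ 0 → ‖s‖ < r → DifferentiableAt ℂ f s)
    (hb : ∀ s, ‖s‖ < r → ‖f s - s‖ ≤ κ * ‖s‖ ^ 3)
    (ht : Tendsto (fun s : ℂ => (f s + f (-s)) / s ^ 4) (𝓝[≠] 0) (𝓝 k₀)) {s : ℂ} (s0 : s ≠ 0)
    (hs : ‖s‖ < r) : ‖f s + f (-s) - s ^ 4 * k₀‖ ≤ 4 * κ / r ^ 3 * ‖s‖ ^ 6 := by
  have b1 : ∀ z : ℂ, z ≠ 0 → ‖z‖ < r → ‖(f z + f (-z)) / z ^ 4‖ ≤ 2 * κ / r := fun z z0 hz => by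
    rw [norm_div, norm_pow, div_le_iff₀ (by positivity)]
    exact (P097N.seven f r κ hr hκ hd hb z hz).trans_eq (by ring)
  have b0 : ‖k₀‖ ≤ 2 * κ / r := by
    refine le_of_tendsto ht.norm ?_
    filter_upwards [self_mem_nhdsWithin, mem_nhdsWithin_of_mem_nhds (ball_mem_nhds (0 : ℂ) hr)]
      with z z0 hz using b1 z z0 (mem_ball_zero_iff.1 hz)
  set k : ℂ → ℂ := Function.update (fun s : ℂ => (f s + f (-s)) / s ^ 4) 0 k₀ with hk
  have k0 : k 0 = k₀ := Function.update_self ..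
  have k1 : ∀ z ≠ 0, k z = (f z + f (-z)) / z ^ 4 := fun z hz => Function.update_of_ne hz _ _
  have d : DifferentiableOn ℂ k (ball 0 r) := by
    refine (Complex.differentiableOn_compl_singleton_and_continuousAt_iff
      (ball_mem_nhds _ hr)).1 ⟨fun z hz => ?_, continuousAt_update_same.2 ht⟩
    have z0 : z ≠ 0 := hz.2
    have z1 := mem_ball_zero_iff.1 hz.1
    refine ((((hd z z0 z1).add ((hd (-z) (neg_ne_zero.2 z0) (by rwa [norm_neg])).comp z
      differentiableAt_id.neg)).div (differentiableAt_pow 4)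
        (pow_ne_zero 4 z0)).congr_of_eventuallyEq ?_).differentiableWithinAt
    filter_upwards [isOpen_ne.mem_nhds z0] with w hw using k1 w hw
  have h := P097N.ColL.even2 (g := fun z => k z - k₀) (M := 4 * κ / r) (d.sub_const _)
    (by rw [k0, sub_self]) (fun w _ => by
      rcases eq_or_ne w 0 with rfl | w0
      · rw [neg_zero]
      · rw [k1 w w0, k1 _ (neg_ne_zero.2 w0), neg_neg, add_comm, Even.neg_pow (by decide)])
    (fun w hw => by
      rcases eq_or_ne w 0 with rfl | w0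
      · rw [k0, sub_self, norm_zero]
        positivity
      · rw [k1 w w0]
        refine (norm_sub_le_of_le (b1 w w0 (mem_ball_zero_iff.1 hw)) b0).trans_eq ?_
        ring) s (mem_ball_zero_iff.2 hs)
  rw [show f s + f (-s) - s ^ 4 * k₀ = s ^ 4 * (k s - k₀) by rw [k1 s s0]; field_simp,
    norm_mul, norm_pow]
  refine (mul_le_mul_of_nonneg_left h (by positivity)).trans_eq ?_
  field_simp

theorem num {u A D X E W : ℝ} (hu : 0 < u) (h1 : 3 / 4 * u ≤ A) (h2 : A ≤ 5 / 4 * u) (hE : 0 ≤ E)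
    (hW : 0 ≤ W) (hD : 0 ≤ D) (x1 : D / 2 ≤ X) (x2 : X ≤ 3 / 2 * D)
    (x3 : |X - A ^ 4 * (E / 15)| ≤ 10368 * W * A ^ 6) :
    E * u ^ 4 ≤ 10 ^ 7 * (D + W * u ^ 6) ∧ D ≤ 10 ^ 7 * (E * u ^ 4 + W * u ^ 6) := by
  have a0 : 0 ≤ A := by linarith
  have p1 : (3 / 4 * u) ^ 4 ≤ A ^ 4 := by gcongr
  have p2 : A ^ 4 ≤ (5 / 4 * u) ^ 4 := by gcongr
  have p3 : A ^ 6 ≤ (5 / 4 * u) ^ 6 := by gcongr
  have q1 := mul_le_mul_of_nonneg_left p1 hE
  have q2 := mul_le_mul_of_nonneg_left p2 hE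
  have q3 := mul_le_mul_of_nonneg_left p3 hW
  have q4 : 0 ≤ E * u ^ 4 := by positivity
  have q5 : 0 ≤ W * u ^ 6 := by positivity
  obtain ⟨y1, y2⟩ := abs_le.1 x3
  constructor <;> nlinarith

theorem ph_law {θ h : ℂ → ℂ} {a b c : ℂ} (e : EE θ h a b c = 0) (h1 : k1 θ h b c ≠ 0)
    (h2 : k1 θ h b a ≠ 0) : Ph θ h (b, c) + Ph θ h (b, a) = 0 := by
  simp only [Ph, EE] at *
  field_simp
  linear_combination (-2 : ℂ) * e

/-- the local estimate in a calm disc -/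
theorem loc {θ H Q : ℂ → ℂ} {c y : ℂ} {r ρ G δ : ℝ} (C : Cv θ H Q c (Strip r))
    (m : Cm r (deriv θ) Q y ρ G) (hδ : 0 < δ) (e : G * δ = 1) {s : ℂ} (hs : ‖s‖ < δ / 6) :
    ‖Ph θ H (y, y + s) - s‖ ≤ 12 * G ^ 2 * ‖s‖ ^ 3 ∧ (s ≠ 0 → k1 θ H y (y + s) ≠ 0 ∧
      DifferentiableAt ℂ (fun s => Ph θ H (y, y + s)) s) := by
  have G0 : 0 < G := (pos_iff_pos_of_mul_pos (by rw [e]; exact one_pos)).2 hδ
  have hρ : δ ≤ ρ := by
    have := mul_le_mul_of_nonneg_left m.one hδ.le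
    nlinarith
  have g1 : ∀ z ∈ ball y ρ, ‖deriv θ z‖ ≤ G := fun z hz =>
    (pow_le_pow_iff_left₀ (norm_nonneg _) G0.le two_ne_zero).1
      (le_trans (le_add_of_nonneg_right (norm_nonneg _)) (m.bd z hz))
  have dg : DifferentiableOn ℂ (deriv θ) (ball y ρ) := (C.dθ.deriv C.op).mono m.sub
  have sg : segment ℝ (y + s) y ⊆ ball y (δ / 6) := (convex_ball _ _).segment_subset
    (by rwa [mem_ball_iff_norm, add_sub_cancel_left]) (mem_ball_self (by positivity))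
  have sb : ball y (δ / 6) ⊆ ball y ρ := ball_subset_ball (by linarith)
  have n1 : ‖y - (y + s)‖ = ‖s‖ := by rw [sub_add_cancel_left, norm_neg]
  have x1 : G * ‖s‖ ≤ 1 / 6 := by nlinarith [mul_le_mul_of_nonneg_left hs.le G0.le]
  have x0 : 0 ≤ G * ‖s‖ := by positivity
  obtain ⟨k, k'⟩ := (P097N.sk θ H Q c _ C).2 y (y + s) (G ^ 2) (6 * G ^ 3) (G ^ 2 * ‖s‖ ^ 2)
    (sg.trans (sb.trans m.sub)) (fun z hz => by
      have hz' := sb (sg hz)
      refine ⟨(norm_sub_le _ _).trans ?_, ?_⟩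
      · rw [norm_pow, add_comm]
        exact m.bd z hz'
      · have h1 := cau dg g1 (t := δ / 2) (z := z) (by positivity)
          (by have := mem_ball_iff_norm.1 (sg hz); linarith)
        have h2 : G / (δ / 2) = 2 * G ^ 2 := by
          rw [div_eq_iff (by positivity)]
          linear_combination (-G) * e
        rw [h2] at h1
        rw [norm_mul, norm_mul, Complex.norm_ofNat]
        calc 3 * ‖deriv θ z‖ * ‖deriv (deriv θ) z‖ ≤ 3 * G * (2 * G ^ 2) := by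
              gcongr
              exact g1 z hz'
          _ = _ := by ring)
    (by rw [n1]) (by rw [n1]; nlinarith [mul_le_mul_of_nonneg_left x1 (mul_nonneg x0 x0)])
    (by nlinarith)
  rw [add_sub_cancel_left] at k
  refine ⟨k.trans_eq (by ring), fun s0 => ?_⟩
  have k2 := k' (by simpa using s0)
  have a := ((P097N.sk θ H Q c _ C).1 y (m.sub (mem_ball_self m.pos)) (y + s)
    (m.sub (sb (sg (left_mem_segment ..))))).2.2 k2
  exact ⟨k2, a.differentiableAt.comp (f := fun s : ℂ => (y, y + s)) s (by fun_prop)⟩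

end LawL

open LawL in
/-- 1203 -/
theorem lawp (hT : S_TAY) : S_LAW := by
  refine ⟨10 ^ 7, by norm_num, fun r c θ H Q C y a b ρ G u m hu hG ha hb hl => ?_⟩
  have V : Cv θ H Q c (Strip r) := ⟨P097N.Bridge.op r, C.dθ, C.dH, C.dQ,
    Complex.ofReal_ne_zero.2 C.cpos.ne', C.laz, C.ode⟩
  have G0 : 0 < G := (pos_iff_pos_of_mul_pos (one_pos.trans_le m.one)).2 m.pos
  obtain ⟨δ, hδ, e⟩ : ∃ δ : ℝ, 0 < δ ∧ G * δ = 1 := ⟨G⁻¹, by positivity, mul_inv_cancel₀ G0.ne'⟩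
  have u1 : u ≤ δ / 40 := by nlinarith [mul_le_mul_of_nonneg_right hG hδ.le]
  have nn : ∀ {a : ℂ}, ‖a - u‖ ≤ u / 4 → 3 / 4 * u ≤ ‖a‖ ∧ ‖a‖ ≤ 5 / 4 * u := fun {a} ha => by
    have h := abs_le.1 ((abs_norm_sub_norm_le a u).trans ha)
    rw [Complex.norm_real, Real.norm_of_nonneg hu.le] at h
    constructor <;> linarith [h.1, h.2]
  obtain ⟨a1, a2⟩ := nn ha
  obtain ⟨b1, b2⟩ := nn hb
  have a0 : a ≠ 0 := norm_pos_iff.1 (by linarith)
  have b0 : b ≠ 0 := norm_pos_iff.1 (by linarith)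
  have L := fun s hs => loc V m hδ e (s := s) hs
  have l1 := lip (f := fun s => Ph θ H (y, y + s)) (t := δ / 32) (r := δ / 6) (κ := 12 * G ^ 2)
    (by positivity) (by linarith) (by positivity)
    (by rw [show 27 * (12 * G ^ 2) * (δ / 32) ^ 2 = 81 / 256 * (G * δ) ^ 2 by ring, e]; norm_num)
    (fun s s0 hs => ((L s hs).2 s0).2) (fun s hs => (L s hs).1) (a := a) (b := b)
    (by linarith) (by linarith)
  have l2 := quart (f := fun s => Ph θ H (y, y + s)) (r := δ / 6) (κ := 12 * G ^ 2)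
    (by positivity) (by positivity) (fun s s0 hs => ((L s hs).2 s0).2) (fun s hs => (L s hs).1)
    (by simpa only [sub_eq_add_neg] using hT θ H Q c _ V y (m.sub (mem_ball_self m.pos))) a0
    (by linarith)
  have l3 := ph_law ((P097N.Bridge.law_eq ..).symm.trans hl) ((L b (by linarith)).2 b0).1 (by
    rw [sub_eq_add_neg]
    exact ((L (-a) (by rw [norm_neg]; linarith)).2 (neg_ne_zero.2 a0)).1)
  rw [sub_eq_add_neg, add_comm, add_eq_zero_iff_eq_neg] at l3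
  have e5 : 4 * (12 * G ^ 2) / (δ / 6) ^ 3 = 10368 * G ^ 5 := by
    rw [div_eq_iff (by positivity)]
    linear_combination (-48 * G ^ 2 * ((G * δ) ^ 2 + G * δ + 1)) * e
  rw [l3, e5, ← sub_eq_add_neg] at l2
  generalize Ph θ H (y, y + a) = p at l1 l2
  generalize Ph θ H (y, y + b) = q at l1 l2
  rw [show p - a - (q - b) = p - q - (a - b) by ring] at l1
  have l4 := abs_le.1 ((abs_norm_sub_norm_le _ _).trans l1)
  have l5 := (abs_norm_sub_norm_le _ _).trans l2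
  rw [norm_mul, norm_pow, norm_div, norm_neg, Complex.norm_ofNat] at l5
  rw [norm_sub_rev b a]
  exact num hu a1 a2 (norm_nonneg _) (by positivity) (norm_nonneg _) (by linarith [l4.1])
    (by linarith [l4.2]) l5

end Vale.Agent.P097M
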