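import Vale.Agent.P097M.Defs

/-! # P097M: the recursion for the moments -/

set_option linter.all false

noncomputable section

namespace Vale.Agent.P097M

namespace Rec

open Finset

theorem shift1 (f : ℤ → ℝ) (N : ℕ) (h : ∀ i : ℤ, f (i + N) = f i) (m : ℤ) :
    ∑ i ∈ range N, f (i + (m + 1)) = ∑ i ∈ range N, f (i + m) := by
  have a := sum_range_succ (fun i : ℕ => f (i + m)) N
  have b := sum_range_succ' (fun i : ℕ => f (i + m)) N
  have c : f (N + m) = f m := by rw [add_comm, h]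
  have d : ∑ i ∈ range N, f (((i + 1 : ℕ) : ℤ) + m) = ∑ i ∈ range N, f (i + (m + 1)) :=
    sum_congr rfl fun i _ => by congr 1; push_cast; ring
  simp only [Nat.cast_zero, zero_add] at b
  linarith

theorem shift (f : ℤ → ℝ) (N : ℕ) (h : ∀ i : ℤ, f (i + N) = f i) (m : ℤ) :
    ∑ i ∈ range N, f (i + m) = ∑ i ∈ range N, f i := by
  induction m using Int.induction_on with
  | zero => simp only [add_zero]
  | succ n ih => rw [shift1 f N h, ih]
  | pred n ih =>
    rw [← ih, ← shift1 f N h]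
    exact sum_congr rfl fun i _ => by congr 1; ring

theorem block (g : ℕ → ℝ) (N b : ℕ) :
    ∑ i ∈ range (N * b), g i = ∑ i ∈ range N, ∑ m ∈ range b, g (i * b + m) := by
  induction N with
  | zero => simp
  | succ n ih => rw [Nat.succ_mul, sum_range_add, ih, sum_range_succ]

theorem parent (f : ℤ → ℝ) (N b : ℕ) (h : ∀ i : ℤ, f (i + N) = f i) (m : ℤ) :
    ∑ i ∈ range (N * b), f ((i : ℤ) / b + m) = b * ∑ i ∈ range N, f i := by
  rw [block, ← shift f N h m, mul_sum]
  refine sum_congr rfl fun i _ => ?_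
  rw [sum_congr rfl (g := fun _ => f (i + m)), sum_const, card_range, nsmul_eq_mul]
  intro a ha
  have ha := mem_range.1 ha
  have e : (i * b + a) / b = i := by
    rw [add_comm, Nat.add_mul_div_right _ _ (by omega), Nat.div_eq_of_lt ha, zero_add]
  rw [← Int.natCast_div, e]

theorem geo (k : ℕ) : ∑ j ∈ range (k + 1), (1 / 2 : ℝ) ^ (k - j) ≤ 2 := by
  have := sum_range_reflect (fun j => (1 / 2 : ℝ) ^ j) (k + 1)
  simp only [Nat.add_sub_cancel] at this
  rw [this]
  exact (summable_geometric_two.sum_le_tsum _ fun _ _ => by positivity).trans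
    tsum_geometric_two.le

end Rec

open Rec Finset in
theorem recm : S_REC := by
  intro ν n₀ w C₁ h0 hper hC H p
  set K : ℝ := C₁ ^ (2 * p + 1) with hK
  have K0 : 0 < K := by positivity
  set D : ℝ := (2 * w + 1) * 2 ^ (p + 2) with hD
  have D0 : 0 < D := by positivity
  obtain ⟨L, k₀, A, hL, H⟩ := H (1 / (2 * K * D)) (by positivity)
  set S : ℕ → ℝ := fun k => ∑ i ∈ range (n₀ * 2 ^ k), ν k (i : ℕ) ^ (2 * p + 2) with hS
  have S0 : ∀ k, 0 ≤ S k := fun k => sum_nonneg fun i _ => pow_nonneg (h0 _ _) _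
  set B : ℝ := max A 0 ^ (4 * (p + 1)) with hB
  have B0 : 0 ≤ B := pow_nonneg (le_max_right _ _) _
  set C : ℝ := n₀ * B / D + ∑ j ∈ range (k₀ + L), S j with hCd
  have T0 : 0 ≤ ∑ j ∈ range (k₀ + L), S j := sum_nonneg fun j _ => S0 j
  have C1 : n₀ * B / D ≤ C := le_add_of_nonneg_right T0
  have C0 : 0 ≤ C := le_trans (by positivity) C1
  refine ⟨C, fun k => ?_⟩
  show S k ≤ C * 2 ^ k
  induction k using Nat.strong_induction_on with
  | _ k' ih =>
  by_cases hk : k' < k₀ + L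
  · have a : S k' ≤ ∑ j ∈ range (k₀ + L), S j :=
      single_le_sum (fun j _ => S0 j) (mem_range.2 hk)
    have b : C ≤ C * 2 ^ k' := le_mul_of_one_le_right C0 (one_le_pow₀ one_le_two)
    have c : 0 ≤ n₀ * B / D := by positivity
    linarith
  obtain ⟨k, rfl⟩ : ∃ k, k' = k + L := ⟨k' - L, by omega⟩
  set t : ℕ → ℤ → ℤ → ℝ := fun j m i =>
    (2 / 2 ^ (k - j)) ^ (p + 1) * ν j (i / 2 ^ (k - j) + m) ^ (2 * p + 2) with ht
  have t0 : ∀ j m i, 0 ≤ t j m i := fun j m i => mul_nonneg (by positivity) (pow_nonneg (h0 _ _) _)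
  set Z : ℤ → ℝ := fun i => B + ∑ j ∈ range (k + 1), ∑ m ∈ Icc (-(w : ℤ)) w, t j m i with hZ
  have ch : ∀ i : ℤ, ∑ m ∈ range (2 ^ L), ν (k + L) (i * 2 ^ L + (m : ℕ)) ^ (2 * p + 2) ≤
      2 ^ L / (2 * D) * Z i := by
    intro i
    have z1 : 0 ≤ ∑ j ∈ range (k + 1), ∑ m ∈ Icc (-(w : ℤ)) w, t j m i :=
      sum_nonneg fun j _ => sum_nonneg fun m _ => t0 j m i
    have z0 : 0 ≤ Z i := add_nonneg B0 z1
    obtain ⟨M, M0, hM⟩ : ∃ M : ℝ, 0 ≤ M ∧ M ^ (4 * (p + 1)) = Z i :=
      ⟨_, Real.rpow_nonneg z0 _, Real.rpow_inv_natCast_pow z0 (by omega)⟩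
    have a1 : max A 0 ≤ M := by
      refine le_of_pow_le_pow_left₀ (n := 4 * (p + 1)) (by omega) M0 ?_
      rw [hM]
      exact le_add_of_nonneg_right z1
    obtain ⟨b1, b2⟩ := H k (by omega) i M ((le_max_left _ _).trans a1) M0 fun j hj m hm => by
      rw [← div_le_iff₀ (by positivity)]
      refine le_of_pow_le_pow_left₀ (n := p + 1) (by omega) (by positivity) ?_
      rw [← pow_mul, hM]
      have e : (2 * ν j (i / 2 ^ (k - j) + m) ^ 2 / 2 ^ (k - j)) ^ (p + 1) = t j m i := by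
        rw [ht, mul_div_right_comm, mul_pow, ← pow_mul, mul_add, mul_one]
      rw [e]
      refine le_add_of_nonneg_of_le B0 ?_
      refine le_trans ?_ (single_le_sum (f := fun j => ∑ m ∈ Icc (-(w : ℤ)) w, t j m i)
        (fun j _ => sum_nonneg fun m _ => t0 j m i) (mem_range.2 (Nat.lt_succ_of_le hj)))
      exact single_le_sum (f := fun m => t j m i) (fun m _ => t0 j m i) (Finset.mem_Icc.2 (abs_le.1 hm))
    calc _ ≤ ∑ m ∈ range (2 ^ L), (C₁ * M ^ 2) ^ (2 * p + 1) * ν (k + L) (i * 2 ^ L + (m : ℕ)) := by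
          refine sum_le_sum fun m hm => ?_
          rw [pow_succ]
          exact mul_le_mul_of_nonneg_right
            (pow_le_pow_left₀ (h0 _ _) (b1 m (mem_range.1 hm)) _) (h0 _ _)
      _ ≤ (C₁ * M ^ 2) ^ (2 * p + 1) * (1 / (2 * K * D) * 2 ^ L * M ^ 2) := by
          rw [← mul_sum]
          exact mul_le_mul_of_nonneg_left b2 (by positivity)
      _ = _ := by
          rw [← hM, mul_pow, ← hK]
          field_simp
          ring
  have st : ∀ j ∈ range (k + 1), ∀ m : ℤ, ∑ i ∈ range (n₀ * 2 ^ k), t j m (i : ℕ) ≤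
      2 ^ (p + 1) * (C * 2 ^ k) * (1 / 2) ^ (k - j) := by
    intro j hj m
    have hj : j ≤ k := Nat.lt_succ_iff.1 (mem_range.1 hj)
    have e : n₀ * 2 ^ k = n₀ * 2 ^ j * 2 ^ (k - j) := by
      rw [mul_assoc, ← pow_add, Nat.add_sub_cancel' hj]
    have a := parent (fun i => ν j i ^ (2 * p + 2)) (n₀ * 2 ^ j) (2 ^ (k - j))
      (fun i => by push_cast; rw [hper]) m
    push_cast at a
    rw [ht, ← mul_sum, e, a]
    have b : (2 : ℝ) ^ (k - j) * S j ≤ C * 2 ^ k := by
      calc _ ≤ (2 : ℝ) ^ (k - j) * (C * 2 ^ j) :=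
            mul_le_mul_of_nonneg_left (ih j (by omega)) (by positivity)
        _ = _ := by rw [mul_left_comm, ← pow_add, Nat.sub_add_cancel hj]
    have c : ((2 : ℝ) / 2 ^ (k - j)) ^ (p + 1) ≤ 2 ^ (p + 1) * (1 / 2) ^ (k - j) := by
      rw [div_eq_mul_one_div, mul_pow, ← one_div_pow]
      exact mul_le_mul_of_nonneg_left (pow_le_of_le_one (by positivity)
        (pow_le_one₀ (by norm_num) (by norm_num)) (by omega)) (by positivity)
    calc _ ≤ 2 ^ (p + 1) * (1 / 2) ^ (k - j) * (C * 2 ^ k) :=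
          mul_le_mul c b (mul_nonneg (by positivity) (S0 j)) (by positivity)
      _ = _ := by ring
  have sz : ∑ i ∈ range (n₀ * 2 ^ k), Z (i : ℕ) ≤ 2 * D * (C * 2 ^ k) := by
    have a : ∑ i ∈ range (n₀ * 2 ^ k), ∑ j ∈ range (k + 1), ∑ m ∈ Icc (-(w : ℤ)) w, t j m (i : ℕ) ≤
        D * (C * 2 ^ k) := by
      rw [sum_comm]
      calc _ ≤ ∑ j ∈ range (k + 1), (2 * w + 1) * (2 ^ (p + 1) * (C * 2 ^ k)) * (1 / 2 : ℝ) ^ (k - j) := by
            refine sum_le_sum fun j hj => ?_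
            rw [sum_comm]
            refine (sum_le_sum fun m _ => st j hj m).trans ?_
            have e : (w : ℤ) + 1 - -(w : ℤ) = ((2 * w + 1 : ℕ) : ℤ) := by push_cast; ring
            rw [sum_const, Int.card_Icc, e, Int.toNat_natCast, nsmul_eq_mul]
            push_cast
            exact le_of_eq (by ring)
        _ ≤ (2 * w + 1) * (2 ^ (p + 1) * (C * 2 ^ k)) * 2 := by
            rw [← mul_sum]
            exact mul_le_mul_of_nonneg_left (geo k) (by positivity)
        _ = _ := by rw [hD]; ring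
    have b : (n₀ : ℝ) * B ≤ C * D := (div_le_iff₀ D0).1 C1
    have c : (n₀ : ℝ) * B * 2 ^ k ≤ C * D * 2 ^ k := by gcongr
    rw [hZ, sum_add_distrib, sum_const, card_range, nsmul_eq_mul]
    push_cast
    linarith
  calc S (k + L) = ∑ i ∈ range (n₀ * 2 ^ k), ∑ m ∈ range (2 ^ L),
        ν (k + L) ((i : ℕ) * 2 ^ L + (m : ℕ)) ^ (2 * p + 2) := by
        rw [hS]
        simp only
        rw [pow_add, ← mul_assoc, block]
        push_cast
        rfl
    _ ≤ ∑ i ∈ range (n₀ * 2 ^ k), 2 ^ L / (2 * D) * Z (i : ℕ) := sum_le_sum fun i _ => ch i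
    _ ≤ 2 ^ L / (2 * D) * (2 * D * (C * 2 ^ k)) := by
        rw [← mul_sum]
        exact mul_le_mul_of_nonneg_left sz (by positivity)
    _ = _ := by
        field_simp
        ring

end Vale.Agent.P097M
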