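import Vale.Agent.P097M.Defs
import Vale.Agent.P097N.Col

/-! # P097M, row 1206: second differences -/

set_option linter.all false

noncomputable section

namespace Vale.Agent.P097M

open Filter Topology Set Metric
open Vale.Agent.P097N.ColL (even2)

namespace Sd

/-- an even function with a zero at the origin, up to the fourth order -/
theorem even4 {g : ℂ → ℂ} {ε M : ℝ} (hε : 0 < ε) (hd : DifferentiableOn ℂ g (ball 0 ε))
    (h0 : g 0 = 0) (h1 : deriv g 0 = 0) (he : ∀ w, g (-w) = g w)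
    (hb : ∀ w ∈ ball (0 : ℂ) ε, ‖g w‖ ≤ M) :
    ∃ c : ℂ, HasDerivAt (deriv g) (2 * c) 0 ∧
      ∀ w ∈ ball (0 : ℂ) ε, ‖g w - w ^ 2 * c‖ ≤ 2 * M / ε ^ 4 * ‖w‖ ^ 4 := by
  have hn : ball (0 : ℂ) ε ∈ 𝓝 (0 : ℂ) := ball_mem_nhds _ hε
  have dh : DifferentiableOn ℂ (dslope (dslope g 0) 0) (ball 0 ε) :=
    (Complex.differentiableOn_dslope hn).2 ((Complex.differentiableOn_dslope hn).2 hd)
  have e : ∀ w, g w = w ^ 2 * dslope (dslope g 0) 0 w := by
    intro w
    have a := sub_smul_dslope g 0 w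
    have b := sub_smul_dslope (dslope g 0) 0 w
    rw [dslope_same, h1] at b
    rw [h0] at a
    simp only [sub_zero, smul_eq_mul] at a b
    rw [← a, ← b]
    ring
  generalize dslope (dslope g 0) 0 = h at dh e
  have b1 : ∀ w ∈ ball (0 : ℂ) ε, w ≠ 0 → ‖h w‖ ≤ M / ε ^ 2 := by
    intro w hw w0
    have a := even2 hd h0 (fun w _ => he w) hb w hw
    rw [e, norm_mul, norm_pow, mul_comm] at a
    exact le_of_mul_le_mul_right a (by positivity)
  have b0 : ‖h 0‖ ≤ M / ε ^ 2 := by
    refine le_of_tendsto ((dh.differentiableAt hn).continuousAt.norm.tendsto.mono_left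
      (nhdsWithin_le_nhds (s := {0}ᶜ))) ?_
    filter_upwards [mem_nhdsWithin_of_mem_nhds hn, self_mem_nhdsWithin] with w a b using b1 w a b
  have b2 := even2 (g := fun w => h w - h 0) (M := 2 * (M / ε ^ 2)) (dh.sub_const _) (sub_self _)
    (fun w _ => by
      by_cases w0 : w = 0
      · rw [w0, neg_zero]
      · have a := he w
        rw [e, e w, neg_sq] at a
        rw [mul_left_cancel₀ (pow_ne_zero 2 w0) a])
    (fun w hw => by
      have a : ‖h w‖ ≤ M / ε ^ 2 := by
        by_cases w0 : w = 0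
        · rw [w0]; exact b0
        · exact b1 w hw w0
      linarith [norm_sub_le (h w) (h 0)])
  refine ⟨h 0, ?_, fun w hw => ?_⟩
  · have d1 : ∀ᶠ w in 𝓝 (0 : ℂ), deriv g w = 2 * w * h w + w ^ 2 * deriv h w := by
      filter_upwards [hn] with w hw
      have a := ((hasDerivAt_pow 2 w).mul
        (dh.differentiableAt (isOpen_ball.mem_nhds hw)).hasDerivAt).deriv
      rw [funext e]
      refine a.trans ?_
      norm_num
    have d2 := (((hasDerivAt_id (0 : ℂ)).const_mul 2).mul (dh.differentiableAt hn).hasDerivAt).add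
      ((hasDerivAt_pow 2 (0 : ℂ)).mul
        ((dh.deriv isOpen_ball).differentiableAt hn).hasDerivAt)
    refine (d2.congr_of_eventuallyEq d1).congr_deriv ?_
    simp
  · rw [e, ← mul_sub, norm_mul, norm_pow]
    refine (mul_le_mul_of_nonneg_left (b2 w hw) (by positivity)).trans_eq ?_
    field_simp

end Sd

open Sd in
/-- 1206 -/
theorem sd : S_SD := by
  intro f x s ρ m hd hb hs
  have hρ : 0 < ρ := (norm_nonneg s).trans_lt hs
  have m0 : 0 ≤ m := (norm_nonneg _).trans (hb x (mem_ball_self hρ))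
  have hs' : s ∈ ball (0 : ℂ) ρ := mem_ball_zero_iff.2 hs
  have p : ∀ w ∈ ball (0 : ℂ) ρ, x + w ∈ ball x ρ := fun w hw => by simpa using hw
  have q : ∀ w ∈ ball (0 : ℂ) ρ, x - w ∈ ball x ρ := fun w hw => by simpa using hw
  have D : ∀ {F : ℂ → ℂ}, DifferentiableOn ℂ F (ball x ρ) → ∀ w ∈ ball (0 : ℂ) ρ,
      HasDerivAt (fun w => F (x + w)) (deriv F (x + w)) w ∧
        HasDerivAt (fun w => F (x - w)) (-deriv F (x - w)) w := fun hF w hw =>
    ⟨(hF.differentiableAt (isOpen_ball.mem_nhds (p w hw))).hasDerivAt.comp_const_add x w,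
      (hF.differentiableAt (isOpen_ball.mem_nhds (q w hw))).hasDerivAt.comp_const_sub x w⟩
  have G : ∀ w ∈ ball (0 : ℂ) ρ, HasDerivAt (fun w => f (x + w) + f (x - w) - 2 * f x)
      (deriv f (x + w) + -deriv f (x - w)) w := fun w hw =>
    ((D hd w hw).1.add (D hd w hw).2).sub_const _
  have dg : DifferentiableOn ℂ (fun w => f (x + w) + f (x - w) - 2 * f x) (ball 0 ρ) :=
    fun w hw => (G w hw).differentiableAt.differentiableWithinAt
  have g0 : f (x + 0) + f (x - 0) - 2 * f x = 0 := by rw [add_zero, sub_zero]; ring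
  have ge : ∀ w, f (x + -w) + f (x - -w) - 2 * f x = f (x + w) + f (x - w) - 2 * f x := fun w => by
    rw [sub_neg_eq_add, ← sub_eq_add_neg, add_comm]
  have gb : ∀ w ∈ ball (0 : ℂ) ρ, ‖f (x + w) + f (x - w) - 2 * f x‖ ≤ 2 * m := fun w hw => by
    rw [show f (x + w) + f (x - w) - 2 * f x = (f (x + w) - f x) + (f (x - w) - f x) by ring]
    linarith [norm_add_le (f (x + w) - f x) (f (x - w) - f x), hb _ (p w hw), hb _ (q w hw)]
  refine ⟨?_, (even2 dg g0 (fun w _ => ge w) gb s hs').trans_eq (by ring), ?_⟩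
  · have a := Complex.dist_le_div_mul_dist_of_mapsTo_ball (R₂ := m) hd
      (fun z hz => mem_closedBall_iff_norm.2 (hb z hz)) (p s hs')
    rw [dist_eq_norm, dist_self_add_left] at a
    exact a.trans_eq (by ring)
  · have z : (0 : ℂ) ∈ ball (0 : ℂ) ρ := mem_ball_self hρ
    obtain ⟨c, h1, h2⟩ := even4 hρ dg g0 (by rw [(G 0 z).deriv]; simp) ge gb
    have h3 := ((D (hd.deriv isOpen_ball) 0 z).1.add (D (hd.deriv isOpen_ball) 0 z).2.neg
      ).congr_of_eventuallyEq (f₁ := deriv fun w => f (x + w) + f (x - w) - 2 * f x) (by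
        filter_upwards [ball_mem_nhds (0 : ℂ) hρ] with w hw using (G w hw).deriv)
    have h4 := h1.unique h3
    rw [add_zero, sub_zero] at h4
    have h5 : deriv (deriv f) x = c := by linear_combination -h4 / 2
    rw [h5]
    refine (h2 s hs').trans ?_
    rw [div_mul_eq_mul_div]
    exact div_le_div_of_nonneg_right (mul_le_mul_of_nonneg_right (by linarith) (by positivity))
      (by positivity)

end Vale.Agent.P097M
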