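import Vale.Agent.P097M.Defs

/-!
# P097M: a sum of Poisson kernels
-/

set_option linter.all false

noncomputable section

namespace Vale.Agent.P097M

open Filter Topology Set Metric Real

namespace Sum

def ph (t : ℝ) : ℝ := 4 * t / (1 + |t|)

theorem ph_le (t : ℝ) : |ph t| ≤ 4 := by
  have : 0 < 1 + |t| := by positivity
  rw [ph, abs_div, abs_mul, abs_of_pos this, div_le_iff₀ this]
  norm_num

theorem step (t : ℝ) : 1 / (1 + t ^ 2) ≤ ph (t + 1) - ph t := by
  unfold ph
  rcases le_total 0 t with h | h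
  · rw [abs_of_nonneg h, abs_of_nonneg (by linarith), div_sub_div _ _ (by positivity) (by positivity),
      div_le_div_iff₀ (by positivity) (by positivity)]
    nlinarith [sq_nonneg (t - 1 / 2)]
  · have a : 0 < 1 + -t := by linarith
    rcases le_total 0 (t + 1) with h' | h'
    · have b : 0 < 1 + (t + 1) := by linarith
      rw [abs_of_nonpos h, abs_of_nonneg h']
      have c1 : 1 / (1 + t ^ 2) ≤ 1 := (div_le_one (by positivity)).2 (by nlinarith)
      have c2 : 2 * (t + 1) ≤ 4 * (t + 1) / (1 + (t + 1)) := (le_div_iff₀ b).2 (by nlinarith)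
      have c3 : 4 * t / (1 + -t) ≤ 2 * t := (div_le_iff₀ a).2 (by nlinarith)
      linarith
    · have b : 0 < 1 + -(t + 1) := by linarith
      rw [abs_of_nonpos h, abs_of_nonpos h', div_sub_div _ _ b.ne' a.ne',
        div_le_div_iff₀ (by positivity) (by positivity)]
      nlinarith

theorem sum_le (x : ℝ) (n : ℕ) : ∑ i ∈ Finset.range n, 1 / (1 + ((i : ℝ) - x) ^ 2) ≤ 8 := by
  have a : ∑ i ∈ Finset.range n, 1 / (1 + ((i : ℝ) - x) ^ 2) ≤
      ∑ i ∈ Finset.range n, (ph (((i + 1 : ℕ) : ℝ) - x) - ph ((i : ℝ) - x)) :=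
    Finset.sum_le_sum fun i _ => (step _).trans_eq (by push_cast; congr 2; ring)
  rw [Finset.sum_range_sub fun i : ℕ => ph ((i : ℝ) - x)] at a
  exact a.trans ((sub_le_sub (abs_le.1 (ph_le _)).2 (abs_le.1 (ph_le _)).1).trans_eq (by norm_num))

theorem ker {c w ζ : ℂ} {R h a t : ℝ} (h0 : 0 < h) (a0 : 0 ≤ a) (hζ : ‖ζ - c‖ = R)
    (h1 : h ≤ R - ‖w - c‖) (h2 : R ^ 2 - ‖w - c‖ ^ 2 ≤ a) (h3 : (w - ζ).re = t * h) :
    poissonKernel c w ζ ≤ 2 * a / h ^ 2 * (1 / (1 + t ^ 2)) := by
  have b1 : h ≤ ‖ζ - c - (w - c)‖ := h1.trans (hζ ▸ norm_sub_norm_le _ _)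
  have b2 : |t * h| ≤ ‖ζ - c - (w - c)‖ := by
    rw [sub_sub_sub_cancel_right, norm_sub_rev, ← h3]
    exact Complex.abs_re_le_norm _
  have b3 := pow_le_pow_left₀ h0.le b1 2
  have b4 := pow_le_pow_left₀ (abs_nonneg _) b2 2
  have b5 := h0.trans_le b1
  rw [sq_abs] at b4
  rw [poissonKernel_def, hζ, div_mul_div_comm, div_le_div_iff₀ (by positivity) (by positivity)]
  have b6 : h ^ 2 * (1 + t ^ 2) ≤ 2 * ‖ζ - c - (w - c)‖ ^ 2 := by nlinarith
  nlinarith [mul_le_mul_of_nonneg_left b6 a0,
    mul_le_mul_of_nonneg_right h2 (show 0 ≤ h ^ 2 * (1 + t ^ 2) by positivity)]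

end Sum

open Sum in
theorem psum : S_SUM := by
  intro F c R R' h a η₀ n z hR h0 a0 R0 hF hp hz
  have sb : closedBall c R ⊆ ball c R' := closedBall_subset_ball hR
  have hd : DiffContOnCl ℂ F (ball c R) :=
    (hF.mono (closure_ball_subset_closedBall.trans sb)).diffContOnCl
  have cF : ContinuousOn F (sphere c |R|) := by
    rw [abs_of_pos R0]
    exact hF.continuousOn.mono (sphere_subset_closedBall.trans sb)
  have zb : ∀ i ∈ Finset.range n, z i ∈ ball c R := fun i hi =>
    mem_ball_iff_norm.2 (by linarith [(hz i (Finset.mem_range.1 hi)).2.1])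
  have cK : ∀ i ∈ Finset.range n, ContinuousOn (poissonKernel c (z i)) (sphere c |R|) :=
    fun i hi => by
      rw [poissonKernel_eq_re_herglotzRieszKernel]
      exact Complex.continuous_re.comp_continuousOn
        (continuousOn_herglotzRieszKernel_sphere (zb i hi))
  have cR : ContinuousOn (fun w => (F w).re) (sphere c |R|) :=
    Complex.continuous_re.comp_continuousOn cF
  have e1 : ∀ i ∈ Finset.range n, (F (z i)).re =
      circleAverage (fun w => poissonKernel c (z i) w * (F w).re) c R := fun i hi => by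
    have := Complex.reCLM.circleAverage_comp_comm (((cK i hi).smul cF).circleIntegrable')
    have e := hd.circleAverage_poissonKernel_smul (zb i hi)
    rw [← e]
    refine this.symm.trans ?_
    congr 1
    funext w
    simp
  have e2 : (F c).re = circleAverage (fun w => (F w).re) c R := by
    have := Complex.reCLM.circleAverage_comp_comm cF.circleIntegrable'
    rw [DiffContOnCl.circleAverage (by rwa [abs_of_pos R0])] at this
    exact this.symm
  rw [Finset.sum_congr rfl e1, e2, ← circleAverage_fun_sum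
    (f := fun i w => poissonKernel c (z i) w * (F w).re) fun i hi =>
    ((cK i hi).mul cR).circleIntegrable', ← smul_eq_mul, ← circleAverage_fun_smul]
  refine circleAverage_mono (continuousOn_finsetSum _ fun i hi =>
    (cK i hi).mul cR).circleIntegrable' (cR.const_smul (16 * a / h ^ 2)).circleIntegrable' fun w hw => ?_
  rw [abs_of_pos R0] at hw
  rw [← Finset.sum_mul, smul_eq_mul]
  refine mul_le_mul_of_nonneg_right ?_ (hp w (sb (sphere_subset_closedBall hw)))
  calc _ ≤ ∑ i ∈ Finset.range n, 2 * a / h ^ 2 * (1 / (1 + ((i : ℝ) - (w.re - η₀) / h) ^ 2)) := by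
        refine Finset.sum_le_sum fun i hi => ?_
        obtain ⟨b1, b2, b3⟩ := hz i (Finset.mem_range.1 hi)
        refine ker h0 a0 (mem_sphere_iff_norm.1 hw) b2 b3 ?_
        rw [Complex.sub_re, b1]
        field_simp
        ring
    _ ≤ 2 * a / h ^ 2 * 8 := by
        rw [← Finset.mul_sum]
        exact mul_le_mul_of_nonneg_left (sum_le _ n) (by positivity)
    _ = _ := by ring

end Vale.Agent.P097M
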