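import Vale.Agent.P097M.Defs

/-!
# P097M, row 1215: the sum over the children
-/

noncomputable section

namespace Vale.Agent.P097M

open Filter Topology Set Metric
open Vale.Agent.P097T (Strip)

namespace SumkAux

variable {r lam C₄ C₁ ξ τ M u δ η s t t1 : ℝ} {g Q : ℂ → ℂ} {n : ℕ} {P : ℂ → ℝ}

theorem calm (sup : SupB r g Q n ξ τ (C₁ * M ^ 2)) (hτr : τ ≤ r / 4) (hC : 1 ≤ C₁) (hM : 4 ≤ M)
    (h0 : 0 < t1) (ht : τ / (2 * n ^ 2) = t1) (hη : |η - ξ| ≤ τ / 8) (h1 : t1 ≤ s) (h2 : s ≤ τ) :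
    Cm r g Q (pt r η s) (s / 8) (2 * (C₁ * M) / s) := by
  have hs : 0 < s := h0.trans_le h1
  have key : ∀ z ∈ ball (pt r η s) (s / 8), |z.re - η| < s / 8 ∧ |z.im - (r - s)| < s / 8 := by
    intro z hz
    rw [mem_ball, dist_eq_norm] at hz
    exact ⟨(Complex.abs_re_le_norm (z - pt r η s)).trans_lt hz,
      (Complex.abs_im_le_norm (z - pt r η s)).trans_lt hz⟩
  refine ⟨by positivity, fun z hz => ?_, fun z hz => ?_, ?_⟩
  · obtain ⟨a, b⟩ := abs_lt.1 (key z hz).2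
    show |z.im| < r
    exact abs_lt.2 ⟨by linarith, by linarith⟩
  · obtain ⟨a, b⟩ := abs_lt.1 (key z hz).2
    obtain ⟨c, d⟩ := abs_lt.1 (key z hz).1
    obtain ⟨e, f⟩ := abs_le.1 hη
    have e4 : τ / (4 * n ^ 2) = t1 / 2 := by rw [← ht]; ring
    have h := sup z (abs_le.2 ⟨by linarith, by linarith⟩) (by linarith) (by linarith)
    have g0 : 0 ≤ Gs g Q z := by unfold Gs; positivity
    rw [div_pow, le_div_iff₀ (by positivity)]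
    have h3 : s ^ 2 ≤ 4 * (r - z.im) ^ 2 := by nlinarith
    have h4 : C₁ * M ^ 2 ≤ (C₁ * M) ^ 2 := by
      rw [mul_pow]; exact mul_le_mul_of_nonneg_right (by nlinarith) (by positivity)
    nlinarith [mul_le_mul_of_nonneg_left h3 g0]
  · have e : 2 * (C₁ * M) / s * (s / 8) = C₁ * M / 4 := by field_simp; ring
    rw [e]; nlinarith

theorem diffE (gq : GQ r g Q) {y : ℂ} (hy : y ∈ Strip r) : DifferentiableAt ℂ (E1 g Q) y := by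
  have so : IsOpen (Strip r) := isOpen_lt (by fun_prop) continuous_const
  have h1 := gq.dg.differentiableAt (so.mem_nhds hy)
  have h2 := gq.dQ.differentiableAt (so.mem_nhds hy)
  unfold E1
  fun_prop

theorem bottom (cone : Cone r g Q ξ τ M) (hτ : 0 < τ) (hτr : τ ≤ r / 4) (hη : |η - ξ| ≤ τ / 8) :
    ‖E1 g Q (pt r η τ)‖ ≤ M ^ 2 / τ ^ 2 := by
  have h := cone (pt r η τ) (by simp) (by simp; linarith) (by simp; linarith)
  simp only [pt_im, sub_sub_cancel] at h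
  have h1 : (Gs g Q (pt r η τ) * τ ^ 2) ^ 2 ≤ (M ^ 2) ^ 2 := by
    rw [← pow_mul]; exact le_of_mul_le_mul_right h hτ
  have h2 := (abs_le_of_sq_le_sq' h1 (by positivity)).2
  rw [le_div_iff₀ (by positivity)]
  refine le_trans (mul_le_mul_of_nonneg_right ?_ (by positivity)) h2
  refine (norm_add_le _ _).trans ?_
  rw [norm_div, norm_pow, Gs, Complex.norm_ofNat]
  nlinarith [sq_nonneg ‖g (pt r η τ)‖]

theorem child (hI : S_INT) (hG : S_GE) (gq : GQ r g Q) (td : TD r g Q lam C₄ n ξ τ M u P)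
    (cone : Cone r g Q ξ τ M) (sup : SupB r g Q n ξ τ (C₁ * M ^ 2)) (hn : 1 ≤ n)
    (hτr : τ ≤ r / 4) (hC : 1 ≤ C₁) (hC₄ : 1 ≤ C₄) (hM : 4 ≤ M) (hu : 0 < u) (h0 : 0 < t1)
    (ht : τ = 2 * n ^ 2 * t1) (huG : u * (2 * (C₁ * M) / t1) ≤ 1 / 40) (hδ : 0 ≤ δ)
    (hδM : 16384 * C₁ ≤ δ ^ 3 * M ^ 2) {η' : ℝ} (hη : |η - ξ| ≤ τ / 8)
    (hη' : |η' - η| ≤ τ / (8 * n ^ 2)) (hP : 0 ≤ P (pt r η' t1)) (h1 : t1 ≤ t) (h2 : t ≤ 2 * t1) :
    Gs g Q (pt r η t) * t ^ 2 ≤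
      76 * C₄ ^ 2 * Real.log (2 * n ^ 2) * (t1 / u ^ 2) * P (pt r η' t1) +
        (152 * C₄ * (C₁ * M) ^ 5 * u ^ 2 / t1 ^ 2 + 19 * M ^ 2 / n ^ 4 + 2 * δ ^ 2 * M ^ 2) := by
  have hn1 : (1 : ℝ) ≤ (n : ℝ) ^ 2 := one_le_pow₀ (by exact_mod_cast hn)
  have hn0 : (0 : ℝ) < n := by exact_mod_cast hn
  have hτ : 0 < τ := by rw [ht]; positivity
  have ht' : τ / (2 * n ^ 2) = t1 := by rw [ht]; field_simp
  have ht8 : τ / (8 * n ^ 2) = t1 / 4 := by rw [← ht']; ring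
  have t0 : 0 < t := h0.trans_le h1
  have htτ : t ≤ τ := by rw [ht]; nlinarith
  have hM0 : 0 < C₁ * M := by nlinarith
  obtain ⟨p, hp⟩ : ∃ p, p = P (pt r η' t1) := ⟨_, rfl⟩
  rw [← hp] at hP ⊢
  obtain ⟨α, hα⟩ : ∃ α, α = C₄ ^ 2 * p / (t1 * u ^ 2) := ⟨_, rfl⟩
  obtain ⟨β, hβ⟩ : ∃ β, β = 32 * C₄ * (C₁ * M) ^ 5 * u ^ 2 := ⟨_, rfl⟩
  have α0 : 0 ≤ α := by rw [hα]; positivity
  have β0 : 0 ≤ β := by rw [hβ]; positivity
  have hint := hI (E1 g Q) r η t τ (fun s => α * Real.log s - β / 4 * (s ^ 4)⁻¹)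
    (fun s => α / s + β / s ^ 5) htτ (by
      rintro s ⟨s1, s2⟩
      have s0 : 0 < s := t0.trans_le s1
      have cm := calm sup hτr hC hM h0 ht' hη (h1.trans s1) s2
      have te : pt r η s ∈ Tent r ξ τ (n ^ 2) := by
        refine ⟨hη.trans (by linarith), ?_, ?_⟩ <;> simp only [pt_im, sub_sub_cancel]
        · linarith
        · exact s2
      refine ⟨diffE gq (cm.sub (mem_ball_self cm.pos)), ?_, ?_⟩
      · have d := ((Real.hasDerivAt_log s0.ne').const_mul α).sub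
          (((hasDerivAt_pow 4 s).inv (pow_ne_zero 4 s0.ne')).const_mul (β / 4))
        refine HasDerivAt.congr_deriv d ?_
        norm_num; field_simp; ring
      · have x := td.xi _ te _ _ cm (le_trans (by gcongr; exact h1.trans s1) huG)
        have l := td.lo _ te η' (by simp only [pt_im, sub_sub_cancel]; linarith) hη'
        simp only [pt_im, sub_sub_cancel, ht', ← hp] at x l
        refine x.trans ?_
        rw [mul_add]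
        refine add_le_add ?_ (le_of_eq (by rw [hβ]; field_simp; norm_num))
        have l' : P (pt r η s) ≤ C₄ * s * p / t1 := (le_div_iff₀ h0).2 l
        calc _ ≤ C₄ * (C₄ * s * p / t1 / (u ^ 2 * s ^ 2)) := by gcongr
          _ = _ := by rw [hα]; field_simp)
  have hlog : Real.log τ - Real.log t ≤ Real.log (2 * n ^ 2) := by
    rw [ht, Real.log_mul (by positivity) h0.ne']
    linarith [Real.log_le_log h0 h1]
  have l0 : 0 ≤ Real.log (2 * n ^ 2) := Real.log_nonneg (by linarith)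
  have hE : ‖E1 g Q (pt r η t)‖ ≤ α * Real.log (2 * n ^ 2) + β / 4 * (t ^ 4)⁻¹ + M ^ 2 / τ ^ 2 := by
    have a := norm_le_insert' (E1 g Q (pt r η t)) (E1 g Q (pt r η τ))
    have b := bottom (g := g) (Q := Q) cone hτ hτr hη
    have c : 0 ≤ β / 4 * (τ ^ 4)⁻¹ := by positivity
    have d := mul_le_mul_of_nonneg_left hlog α0
    linarith
  have ge := hG r g Q _ _ _ (δ * M / t) gq (calm sup hτr hC hM h0 ht' hη h1 htτ) (by positivity) (by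
    have e : (δ * M / t) ^ 3 * (t / 8) ^ 2 = δ ^ 3 * M ^ 2 * M / 64 / t := by field_simp; norm_num
    rw [e, ← mul_div_assoc]
    gcongr
    nlinarith)
  have b1 : α * Real.log (2 * n ^ 2) * t ^ 2 ≤
      4 * C₄ ^ 2 * Real.log (2 * n ^ 2) * (t1 / u ^ 2) * p :=
    calc _ ≤ α * Real.log (2 * n ^ 2) * (2 * t1) ^ 2 := by gcongr
      _ = _ := by rw [hα]; field_simp; ring
  have b2 : β / 4 * (t ^ 4)⁻¹ * t ^ 2 ≤ 8 * C₄ * (C₁ * M) ^ 5 * u ^ 2 / t1 ^ 2 :=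
    calc _ = β / 4 / t ^ 2 := by field_simp
      _ ≤ β / 4 / t1 ^ 2 := by gcongr
      _ = _ := by rw [hβ]; ring
  have b3 : M ^ 2 / τ ^ 2 * t ^ 2 ≤ M ^ 2 / n ^ 4 :=
    calc _ ≤ M ^ 2 / τ ^ 2 * (2 * t1) ^ 2 := by gcongr
      _ = _ := by rw [ht]; field_simp
  have b4 : (δ * M / t) ^ 2 * t ^ 2 = δ ^ 2 * M ^ 2 := by field_simp
  calc _ ≤ (19 * (α * Real.log (2 * n ^ 2) + β / 4 * (t ^ 4)⁻¹ + M ^ 2 / τ ^ 2) +
        2 * (δ * M / t) ^ 2) * t ^ 2 := by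
        refine mul_le_mul_of_nonneg_right (ge.trans ?_) (by positivity)
        linarith
    _ = 19 * (α * Real.log (2 * n ^ 2) * t ^ 2) + 19 * (β / 4 * (t ^ 4)⁻¹ * t ^ 2) +
        19 * (M ^ 2 / τ ^ 2 * t ^ 2) + 2 * ((δ * M / t) ^ 2 * t ^ 2) := by ring
    _ ≤ 19 * (4 * C₄ ^ 2 * Real.log (2 * n ^ 2) * (t1 / u ^ 2) * p) +
        19 * (8 * C₄ * (C₁ * M) ^ 5 * u ^ 2 / t1 ^ 2) + 19 * (M ^ 2 / n ^ 4) +
        2 * (δ ^ 2 * M ^ 2) := by rw [b4]; gcongr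
    _ = _ := by ring

theorem total (hI : S_INT) (hG : S_GE) (gq : GQ r g Q) (td : TD r g Q lam C₄ n ξ τ M u P)
    (cone : Cone r g Q ξ τ M) (sup : SupB r g Q n ξ τ (C₁ * M ^ 2)) (hn : 1 ≤ n)
    (hτr : τ ≤ r / 4) (hC : 1 ≤ C₁) (hC₄ : 1 ≤ C₄) (hM : 4 ≤ M) (hu : 0 < u) (h0 : 0 < t1)
    (ht : τ = 2 * n ^ 2 * t1) (huG : u * (2 * (C₁ * M) / t1) ≤ 1 / 40) (hδ : 0 ≤ δ)
    (hδM : 16384 * C₁ ≤ δ ^ 3 * M ^ 2) (l0 : 0 < lam) (l1 : lam ≤ 1 / 8) :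
    SumB r g Q lam n ξ τ (n ^ 2 * (76 * C₄ ^ 3 * Real.log (2 * n ^ 2) *
      (n * (t1 / u) + M ^ 2 / (2 * n)) + (152 * C₄ * (C₁ * M) ^ 5 * u ^ 2 / t1 ^ 2 +
        19 * M ^ 2 / n ^ 4 + 2 * δ ^ 2 * M ^ 2))) := by
  intro ys hys
  have hn1 : (1 : ℝ) ≤ (n : ℝ) ^ 2 := one_le_pow₀ (by exact_mod_cast hn)
  have hn0 : (0 : ℝ) < n := by exact_mod_cast hn
  have hτ : 0 < τ := by rw [ht]; positivity
  have ht' : τ / (2 * n ^ 2) = t1 := by rw [ht]; field_simp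
  have ht1 : τ / n ^ 2 = 2 * t1 := by rw [ht]; field_simp
  have ht8 : τ / (8 * n ^ 2) = t1 / 4 := by rw [← ht']; ring
  obtain ⟨h, hh⟩ : ∃ h, h = lam * τ / n ^ 2 := ⟨_, rfl⟩
  have h1 : h = lam * (2 * t1) := by rw [hh, mul_div_assoc, ht1]
  have h2 : 0 < h := by rw [h1]; positivity
  have h3 : h ≤ t1 / 4 := by rw [h1]; nlinarith
  have h4 : n ^ 2 * h ≤ τ / 8 := by rw [ht]; nlinarith
  have hs := td.sum
  rw [← hh, ht'] at hs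
  have lg : 0 ≤ Real.log (2 * n ^ 2) := Real.log_nonneg (by linarith)
  refine (Finset.sum_le_sum (g := fun m : ℕ => 76 * C₄ ^ 2 * Real.log (2 * n ^ 2) * (t1 / u ^ 2) *
    P (pt r (ξ + m * h) t1) + (152 * C₄ * (C₁ * M) ^ 5 * u ^ 2 / t1 ^ 2 + 19 * M ^ 2 / n ^ 4 +
      2 * δ ^ 2 * M ^ 2)) fun m hm => ?_).trans ?_
  · have hm' := Finset.mem_range.1 hm
    obtain ⟨a, b, c⟩ := hys m hm'
    rw [← hh] at c
    rw [ht'] at a
    rw [ht1] at b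
    have m1 : (m : ℝ) + 1 ≤ n ^ 2 := by exact_mod_cast hm'
    have m2 : 0 ≤ m * h := by positivity
    have m3 : m * h + h ≤ τ / 8 := by nlinarith
    obtain ⟨c1, c2⟩ := abs_le.1 c
    have hP := td.nn (pt r (ξ + m * h) t1) ⟨by
      rw [pt_re, add_sub_cancel_left, abs_of_nonneg m2]; linarith, by
      simp only [pt_im, sub_sub_cancel]; linarith, by
      simp only [pt_im, sub_sub_cancel]; rw [ht]; nlinarith⟩
    have e := child hI hG gq td cone sup hn hτr hC hC₄ hM hu h0 ht huG hδ hδM (η := (ys m).re)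
      (abs_le.2 ⟨by linarith, by linarith⟩) (abs_le.2 ⟨by linarith, by linarith⟩) hP a b
    rwa [pt_self] at e
  · rw [Finset.sum_add_distrib, ← Finset.mul_sum, Finset.sum_const, Finset.card_range,
      nsmul_eq_mul, mul_add (n ^ 2 : ℝ), Nat.cast_pow]
    refine add_le_add ?_ le_rfl
    calc _ ≤ 76 * C₄ ^ 2 * Real.log (2 * n ^ 2) * (t1 / u ^ 2) *
          (C₄ * n ^ 3 * (u + u ^ 2 * M ^ 2 / τ)) := by gcongr
      _ = _ := by rw [ht]; field_simp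

theorem exL {K ε : ℝ} (hK : 0 < K) (hε : 0 < ε) : ∃ L : ℕ, 1 ≤ L ∧ K * L ≤ ε * 2 ^ L := by
  have h := (tendsto_pow_const_div_const_pow_of_one_lt 1 (r := 2) one_lt_two).eventually
    (gt_mem_nhds (div_pos hε hK))
  obtain ⟨L, h1, h2⟩ := (h.and (eventually_ge_atTop 1)).exists
  refine ⟨L, h2, ?_⟩
  rw [pow_one, div_lt_div_iff₀ (by positivity) hK] at h1
  linarith

theorem log_le {L : ℕ} (hL : 1 ≤ L) : Real.log (2 * ((2 ^ L : ℕ) : ℝ) ^ 2) ≤ 3 * L := by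
  have e : 2 * ((2 ^ L : ℕ) : ℝ) ^ 2 = 2 ^ (2 * L + 1) := by push_cast; ring
  have h1 : Real.log 2 ≤ 1 := by linarith [Real.log_le_sub_one_of_pos two_pos]
  have h2 : (1 : ℝ) ≤ L := by exact_mod_cast hL
  rw [e, Real.log_pow]
  push_cast
  nlinarith

theorem small {c c₄ w : ℝ} (c0 : 0 < c) (c1 : c ≤ 1) (c2 : c ≤ c₄) (hn : 1 ≤ n) (w2 : 2 ≤ w)
    (wa : (n : ℝ) ^ 2 ≤ w * c₄) (h0 : 0 < t1) (ht : τ = 2 * n ^ 2 * t1) :
    c * t1 / w ^ 3 < τ ∧ Sm c₄ n τ (w ^ 2) (c * t1 / w ^ 3) := by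
  have n2 : (1 : ℝ) ≤ (n : ℝ) ^ 2 := one_le_pow₀ (by exact_mod_cast hn)
  have n0 : (0 : ℝ) < n := by exact_mod_cast hn
  have w0 : 0 < w := by linarith
  have w3 : w ≤ w ^ 3 := le_self_pow₀ (by linarith) (by norm_num)
  have w4 : 1 ≤ 4 * w ^ 2 := by nlinarith
  have t2 : 2 * t1 ≤ τ := by rw [ht]; nlinarith
  have cc : c ^ 2 ≤ c₄ := by nlinarith
  have c5 : 0 < c₄ := c0.trans_le c2
  refine ⟨?_, by positivity, ?_, ?_, ?_⟩
  · calc _ ≤ 1 * t1 / 1 := by gcongr; linarith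
      _ < _ := by linarith
  · calc _ ≤ 1 * t1 / w * (n ^ 2 * n ^ 2) := by rw [← pow_add]; gcongr
      _ ≤ 1 * t1 / w * (w * c₄ * n ^ 2) := by gcongr
      _ = c₄ * (τ / 2) := by rw [ht]; field_simp
      _ ≤ _ := by gcongr; linarith
  · calc _ = c ^ 2 * τ ^ 2 / (4 * w ^ 2) := by rw [ht]; field_simp; norm_num
      _ ≤ c₄ * τ ^ 2 / 1 := by gcongr
      _ = _ := div_one _
  · calc _ = c ^ 2 * t1 ^ 2 := by field_simp
      _ ≤ _ := by gcongr; linarith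

theorem fin {c ε w L Λ : ℝ} (c0 : 0 < c) (c1 : c ≤ 1) (hC : 1 ≤ C₁) (hC₄ : 1 ≤ C₄) (hε : 0 < ε)
    (c4 : c * (760 * C₄ * C₁ ^ 5) ≤ ε) (d0 : 0 < δ) (d1 : δ ≤ 1) (d2 : δ ≤ ε / 10) (hn : 1 ≤ n)
    (L1 : 1 ≤ L) (hL : 570 * C₄ ^ 3 * L ≤ ε * n) (hΛ : Λ ≤ 3 * L) (w0 : 0 < w)
    (wc : 1140 * C₄ ^ 3 * L * n ≤ w * (c * ε)) (h0 : 0 < t1) :
    76 * C₄ ^ 3 * Λ * (n * (t1 / (c * t1 / w ^ 3)) + (w ^ 2) ^ 2 / (2 * n)) +
      (152 * C₄ * (C₁ * w ^ 2) ^ 5 * (c * t1 / w ^ 3) ^ 2 / t1 ^ 2 +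
        19 * (w ^ 2) ^ 2 / n ^ 4 + 2 * δ ^ 2 * (w ^ 2) ^ 2) ≤ ε * w ^ 4 := by
  have n1 : (1 : ℝ) ≤ n := by exact_mod_cast hn
  have cc : c ^ 2 ≤ c := by nlinarith
  have b1 : 76 * C₄ ^ 3 * (3 * L) * (n * (t1 / (c * t1 / w ^ 3))) ≤ ε / 5 * w ^ 4 :=
    calc _ = 1140 * C₄ ^ 3 * L * n * (w ^ 3 / (5 * c)) := by field_simp; norm_num
      _ ≤ w * (c * ε) * (w ^ 3 / (5 * c)) := by gcongr
      _ = _ := by field_simp
  have b2 : 76 * C₄ ^ 3 * (3 * L) * ((w ^ 2) ^ 2 / (2 * n)) ≤ ε / 5 * w ^ 4 :=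
    calc _ = 570 * C₄ ^ 3 * L * (w ^ 4 / (5 * n)) := by field_simp; norm_num
      _ ≤ ε * n * (w ^ 4 / (5 * n)) := by gcongr
      _ = _ := by field_simp
  have b3 : 152 * C₄ * (C₁ * w ^ 2) ^ 5 * (c * t1 / w ^ 3) ^ 2 / t1 ^ 2 ≤ ε / 5 * w ^ 4 :=
    calc _ = c ^ 2 * (760 * C₄ * C₁ ^ 5) * (w ^ 4 / 5) := by field_simp; norm_num
      _ ≤ c * (760 * C₄ * C₁ ^ 5) * (w ^ 4 / 5) := by gcongr
      _ ≤ ε * (w ^ 4 / 5) := by gcongr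
      _ = _ := by ring
  have b4 : 19 * (w ^ 2) ^ 2 / n ^ 4 ≤ ε / 5 * w ^ 4 := by
    have a : (95 : ℝ) ≤ ε * n := by
      refine le_trans ?_ hL
      calc (95 : ℝ) ≤ 570 * 1 ^ 3 * 1 := by norm_num
        _ ≤ _ := by gcongr
    calc _ ≤ 19 * (w ^ 2) ^ 2 / n := by gcongr; exact le_self_pow₀ n1 (by norm_num)
      _ = 95 * (w ^ 4 / (5 * n)) := by field_simp; norm_num
      _ ≤ ε * n * (w ^ 4 / (5 * n)) := by gcongr
      _ = _ := by field_simp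
  have b5 : 2 * δ ^ 2 * (w ^ 2) ^ 2 ≤ ε / 5 * w ^ 4 := by
    rw [← pow_mul]
    exact mul_le_mul_of_nonneg_right (by nlinarith) (by positivity)
  calc _ ≤ 76 * C₄ ^ 3 * (3 * L) * (n * (t1 / (c * t1 / w ^ 3)) + (w ^ 2) ^ 2 / (2 * n)) + _ := by
        gcongr
    _ ≤ _ := by rw [mul_add]; linarith

end SumkAux

open SumkAux in
theorem sumk (hI : S_INT) (hG : S_GE) : S_SUMK := by
  intro C₄ c₄ C₁ ε hC₄ hc₄ hC hε
  obtain ⟨c, c0, c1, c2, c3, c4⟩ : ∃ c : ℝ, 0 < c ∧ c ≤ 1 ∧ c ≤ c₄ ∧ c * C₁ ≤ 1 / 80 ∧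
      c * (760 * C₄ * C₁ ^ 5) ≤ ε :=
    ⟨min (min 1 c₄) (min (1 / 80 / C₁) (ε / (760 * C₄ * C₁ ^ 5))), by positivity,
      (min_le_left _ _).trans (min_le_left _ _), (min_le_left _ _).trans (min_le_right _ _),
      (le_div_iff₀ (by positivity)).1 ((min_le_right _ _).trans (min_le_left _ _)),
      (le_div_iff₀ (by positivity)).1 ((min_le_right _ _).trans (min_le_right _ _))⟩
  obtain ⟨δ, d0, d1, d2⟩ : ∃ δ : ℝ, 0 < δ ∧ δ ≤ 1 ∧ δ ≤ ε / 10 :=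
    ⟨min 1 (ε / 10), by positivity, min_le_left _ _, min_le_right _ _⟩
  obtain ⟨L, hL, hL'⟩ := exL (K := 570 * C₄ ^ 3) (by positivity) hε
  have hΛ := log_le hL
  have e4 : (4 : ℝ) ^ L = ((2 ^ L : ℕ) : ℝ) ^ 2 := by
    push_cast; rw [← pow_mul, mul_comm, pow_mul]; norm_num
  have e2 : (2 : ℝ) ^ L = ((2 ^ L : ℕ) : ℝ) := by push_cast; rfl
  rw [e2] at hL'
  have hn : 1 ≤ 2 ^ L := Nat.one_le_two_pow
  have L1 : (1 : ℝ) ≤ L := by exact_mod_cast hL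
  refine ⟨L, (2 + ((2 ^ L : ℕ) : ℝ) ^ 2 / c₄ + 16384 * C₁ / δ ^ 3 +
    1140 * C₄ ^ 3 * L * (2 ^ L : ℕ) / (c * ε)) ^ 2, hL, ?_⟩
  rw [e4]
  clear e2 e4
  generalize 2 ^ L = n at *
  intro r lam u₀ ξ τ M g Q gq l0 l1 tda hτ hτr hτu hA cone sup
  have n1 : (1 : ℝ) ≤ n := by exact_mod_cast hn
  obtain ⟨w, hw0, rfl⟩ : ∃ w : ℝ, 0 ≤ w ∧ M = w ^ 2 :=
    ⟨√M, Real.sqrt_nonneg _, (Real.sq_sqrt ((sq_nonneg _).trans hA)).symm⟩
  have hw := (abs_le_of_sq_le_sq' hA hw0).2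
  have p1 : 0 ≤ (n : ℝ) ^ 2 / c₄ := by positivity
  have p2 : 0 ≤ 16384 * C₁ / δ ^ 3 := by positivity
  have p3 : 0 ≤ 1140 * C₄ ^ 3 * L * n / (c * ε) := by positivity
  have w2 : 2 ≤ w := by linarith only [hw, p1, p2, p3]
  have w1 : 1 ≤ w := by linarith only [w2]
  have wa : (n : ℝ) ^ 2 ≤ w * c₄ := (div_le_iff₀ hc₄).1 (by linarith only [hw, p2, p3])
  have wb : 16384 * C₁ ≤ w * δ ^ 3 :=
    (div_le_iff₀ (by positivity)).1 (by linarith only [hw, p1, p3])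
  have wc : 1140 * C₄ ^ 3 * L * n ≤ w * (c * ε) :=
    (div_le_iff₀ (by positivity)).1 (by linarith only [hw, p1, p2])
  have w4 : w ≤ (w ^ 2) ^ 2 := by rw [← pow_mul]; exact le_self_pow₀ w1 (by norm_num)
  have hM : 4 ≤ w ^ 2 := by nlinarith only [w2]
  obtain ⟨t1, h0, ht⟩ : ∃ t1 : ℝ, 0 < t1 ∧ τ = 2 * n ^ 2 * t1 :=
    ⟨τ / (2 * n ^ 2), by positivity, by field_simp⟩
  obtain ⟨s1, s2⟩ := small c0 c1 c2 hn w2 wa h0 ht
  obtain ⟨P, td⟩ := tda n ξ τ (w ^ 2) (c * t1 / w ^ 3) hn hτ hτr (by linarith only [hM]) cone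
    (s1.trans_le hτu) s2
  have hs := total hI hG gq td cone sup hn hτr hC hC₄ hM (by positivity) h0 ht
    (calc _ = 2 * (c * C₁) / w := by field_simp
      _ ≤ 2 * (1 / 80) / 1 := by gcongr
      _ = _ := by norm_num) d0.le
    (wb.trans (by rw [mul_comm]; gcongr)) l0 l1
  intro ys hys
  refine (hs ys hys).trans ?_
  rw [show ε * (n : ℝ) ^ 2 * (w ^ 2) ^ 2 = n ^ 2 * (ε * w ^ 4) by ring]
  exact mul_le_mul_of_nonneg_left
    (fin c0 c1 hC hC₄ hε c4 d0 d1 d2 hn L1 hL' hΛ (by positivity) wc h0) (by positivity)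

end Vale.Agent.P097M
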