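import Vale.Agent.P097M.Defs

/-!
# P097M: the maximum in the tent
-/

set_option linter.all false

noncomputable section

namespace Vale.Agent.P097M

open Filter Topology Set Metric
open Vale.Agent.P097T (Strip)

namespace SupP

variable {r ξ τ M T : ℝ} {g Q : ℂ → ℂ}

theorem gs_nn (g Q : ℂ → ℂ) (y : ℂ) : 0 ≤ Gs g Q y := by unfold Gs; positivity

theorem e1_le (g Q : ℂ → ℂ) (y : ℂ) : ‖E1 g Q y‖ ≤ Gs g Q y := by
  refine (norm_add_le _ _).trans ?_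
  rw [norm_div, norm_pow, Gs]
  have : ‖(8 : ℂ)‖ = 8 := by simp
  rw [this]
  nlinarith [sq_nonneg ‖g y‖]

theorem open_strip (r : ℝ) : IsOpen (Strip r) :=
  isOpen_lt (Complex.continuous_im.abs) continuous_const

theorem mem_strip {y : ℂ} (h0 : 0 < r - y.im) (h1 : r - y.im < 2 * r) : y ∈ Strip r := by
  show |y.im| < r
  exact abs_lt.2 ⟨by linarith, by linarith⟩

theorem cone2 (hC : Cone r g Q ξ τ M) (h0 : 0 < τ) (h1 : τ ≤ r / 4) {y : ℂ} (a : τ ≤ r - y.im)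
    (b : r - y.im ≤ 2 * τ) (c : |y.re - ξ| ≤ 2 * τ) : Gs g Q y * (r - y.im) ^ 2 ≤ 2 * M ^ 2 := by
  have h := hC y a (by linarith) (by linarith)
  have h2 : (Gs g Q y * (r - y.im) ^ 2) ^ 2 * τ ≤ (2 * M ^ 2) ^ 2 * τ := by
    have : 0 ≤ M ^ 4 := by positivity
    nlinarith
  exact le_of_sq_le_sq (le_of_mul_le_mul_right h2 h0) (by positivity)

theorem cone3 (hC : Cone r g Q ξ τ M) (h0 : 0 < τ) (h1 : τ ≤ r / 4) {y : ℂ} (a : τ ≤ r - y.im)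
    (b : r - y.im ≤ 2 * τ) (c : |y.re - ξ| ≤ 2 * τ) : Gs g Q y * τ ^ 2 ≤ 2 * M ^ 2 :=
  (mul_le_mul_of_nonneg_left (pow_le_pow_left₀ h0.le a 2) (gs_nn g Q y)).trans
    (cone2 hC h0 h1 a b c)

/-- the distance to the sides and to the top of the tent -/
def de (r ξ τ T : ℝ) (y : ℂ) : ℝ := min (τ / 2 - |y.re - ξ|) (r - y.im - τ / (8 * T))

theorem tent_sub (h0 : 0 < τ) (h1 : τ ≤ r / 4) (hT : 1 ≤ T) : Tent r ξ τ T ⊆ Strip r := by
  intro y hy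
  have : 0 < τ / (8 * T) := by positivity
  exact mem_strip (by linarith [hy.2.1]) (by linarith [hy.2.2])

theorem ex_max (hG : GQ r g Q) (h0 : 0 < τ) (h1 : τ ≤ r / 4) (hT : 1 ≤ T) :
    ∃ y ∈ Tent r ξ τ T, ∀ z ∈ Tent r ξ τ T,
      Gs g Q z * de r ξ τ T z ^ 2 ≤ Gs g Q y * de r ξ τ T y ^ 2 := by
  have hc : IsCompact (Tent r ξ τ T) := by
    have e : Tent r ξ τ T = Icc (ξ - τ / 2) (ξ + τ / 2) ×ℂ Icc (r - τ) (r - τ / (8 * T)) := by
      ext y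
      simp only [Tent, mem_setOf_eq, Complex.mem_reProdIm, mem_Icc, abs_le]
      constructor
      · rintro ⟨⟨a, b⟩, c, d⟩
        exact ⟨⟨by linarith, by linarith⟩, by linarith, by linarith⟩
      · rintro ⟨⟨a, b⟩, c, d⟩
        exact ⟨⟨by linarith, by linarith⟩, by linarith, by linarith⟩
    rw [e]
    exact isCompact_Icc.reProdIm isCompact_Icc
  have hne : (Tent r ξ τ T).Nonempty := by
    refine ⟨pt r ξ τ, by simp; positivity, ?_, by simp⟩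
    rw [pt_im, sub_sub_cancel, div_le_iff₀ (by positivity)]
    nlinarith
  have hs := tent_sub (ξ := ξ) h0 h1 hT
  have c1 : ContinuousOn (Gs g Q) (Tent r ξ τ T) :=
    (((hG.dg.continuousOn.mono hs).norm.pow 2).add (hG.dQ.continuousOn.mono hs).norm)
  have c2 : Continuous (de r ξ τ T) := by unfold de; fun_prop
  obtain ⟨y, hy, h⟩ := hc.exists_isMaxOn hne (c1.mul (c2.continuousOn.pow 2))
  exact ⟨y, hy, fun z hz => h hz⟩

theorem calm (hC : Cone r g Q ξ τ M) (h0 : 0 < τ) (h1 : τ ≤ r / 4) (hT : 1 ≤ T) {W d G η s : ℝ}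
    (hW : ∀ z ∈ Tent r ξ τ T, Gs g Q z * de r ξ τ T z ^ 2 ≤ W) (d0 : 0 < d)
    (d1 : d ≤ τ / 2 - |η - ξ|) (d2 : d ≤ s - τ / (8 * T)) (s1 : s ≤ τ)
    (g1 : W ≤ G ^ 2 * (d / 2) ^ 2) (g2 : 2 * M ^ 2 ≤ G ^ 2 * τ ^ 2) (g3 : 1 ≤ G * (d / 2)) :
    Cm r g Q (pt r η s) (d / 2) G := by
  have hp : 0 < τ / (8 * T) := by positivity
  have ha := abs_nonneg (η - ξ)
  have near : ∀ z ∈ ball (pt r η s) (d / 2), |z.re - η| ≤ d / 2 ∧ |z.im - (r - s)| ≤ d / 2 := by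
    intro z hz
    rw [mem_ball, dist_eq_norm] at hz
    exact ⟨(Complex.abs_re_le_norm (z - pt r η s)).trans hz.le,
      (Complex.abs_im_le_norm (z - pt r η s)).trans hz.le⟩
  refine ⟨by positivity, fun z hz => ?_, fun z hz => ?_, g3⟩
  · obtain ⟨a, b⟩ := abs_le.1 (near z hz).2
    exact mem_strip (by linarith) (by linarith)
  · obtain ⟨a, b⟩ := abs_le.1 (near z hz).2
    have c : |z.re - ξ| ≤ d / 2 + |η - ξ| := by
      have := abs_sub_le z.re η ξ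
      linarith [(near z hz).1]
    rcases le_total (r - z.im) τ with h | h
    · have h2 := hW z ⟨by linarith, by linarith, h⟩
      have h3 : d / 2 ≤ de r ξ τ T z := le_min (by linarith) (by linarith)
      have h4 := mul_le_mul_of_nonneg_left (pow_le_pow_left₀ (by positivity) h3 2) (gs_nn g Q z)
      exact le_of_mul_le_mul_right (h4.trans (h2.trans g1)) (by positivity)
    · have h2 := cone3 hC h0 h1 h (by linarith) (by linarith)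
      exact le_of_mul_le_mul_right (h2.trans g2) (by positivity)

theorem e1_bd (hI : S_INT) (hG : GQ r g Q) (hC : Cone r g Q ξ τ M) (h0 : 0 < τ) (h1 : τ ≤ r / 4)
    {n : ℕ} (hT : 1 ≤ (n : ℝ) ^ 2) {lam C₄ u ρ G η t : ℝ} {P : ℂ → ℝ} (hC₄ : 1 ≤ C₄) (u0 : 0 < u)
    (hP : TD r g Q lam C₄ n ξ τ M u P) (hη : |η - ξ| ≤ τ / 2) (t0 : τ / (8 * n ^ 2) ≤ t)
    (t1 : t ≤ τ) (hcm : ∀ s ∈ Icc t τ, Cm r g Q (pt r η s) ρ G) (hu : u * G ≤ 1 / 40) :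
    ‖E1 g Q (pt r η t)‖ ≤
      2 * M ^ 2 / τ ^ 2 + C₄ ^ 2 * (τ / u + M ^ 2) / (2 * t ^ 2) + C₄ * G ^ 5 * u ^ 2 * τ := by
  have hp : 0 < τ / (8 * (n : ℝ) ^ 2) := by positivity
  have tp : 0 < t := hp.trans_le t0
  have G0 : 0 < G := by
    have h := hcm t ⟨le_rfl, t1⟩
    by_contra hn
    have := mul_nonpos_of_nonpos_of_nonneg (not_lt.1 hn) h.pos.le
    linarith [h.one]
  set α := C₄ ^ 2 * (τ / u + M ^ 2) with hα
  set β := C₄ * G ^ 5 * u ^ 2 with hβ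
  have α0 : 0 ≤ α := by positivity
  have β0 : 0 ≤ β := by positivity
  have h := hI (E1 g Q) r η t τ (fun s => -(α / 2) * (s ^ 2)⁻¹ + β * s)
    (fun s => α / s ^ 3 + β) t1 fun s hs => by
      have s0 : 0 < s := tp.trans_le hs.1
      have hm : pt r η s ∈ Tent r ξ τ (n ^ 2) :=
        ⟨hη, by rw [pt_im, sub_sub_cancel]; exact t0.trans hs.1, by
          rw [pt_im, sub_sub_cancel]; exact hs.2⟩
      have hn := (open_strip r).mem_nhds (tent_sub h0 h1 hT hm)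
      refine ⟨?_, ?_, ?_⟩
      · exact (hG.dQ.differentiableAt hn).add (((hG.dg.differentiableAt hn).pow 2).div_const 8)
      · have a1 := ((hasDerivAt_pow 2 s).inv (pow_ne_zero 2 s0.ne')).const_mul (-(α / 2))
        have a2 := (hasDerivAt_id s).const_mul β
        refine (a1.add a2).congr_deriv ?_
        simp only [Nat.cast_ofNat, Nat.add_one_sub_one, pow_one, mul_one]
        field_simp
      · have a1 := hP.xi _ hm ρ G (hcm s hs) hu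
        have a2 := hP.up _ hm
        rw [pt_im, sub_sub_cancel] at a1 a2
        refine a1.trans ?_
        have a3 : P (pt r η s) / (u ^ 2 * s ^ 2) ≤ C₄ * (τ / u + M ^ 2) / s ^ 3 := by
          rw [div_le_div_iff₀ (by positivity) (by positivity)]
          have e : C₄ * (τ / u + M ^ 2) * (u ^ 2 * s ^ 2) =
              C₄ * τ * (u + u ^ 2 * M ^ 2 / τ) * s ^ 2 := by field_simp
          rw [e, pow_succ' s 2, ← mul_assoc]
          exact mul_le_mul_of_nonneg_right a2 (by positivity)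
        calc _ ≤ C₄ * (C₄ * (τ / u + M ^ 2) / s ^ 3 + G ^ 5 * u ^ 2) := by gcongr
          _ = _ := by rw [hα, hβ]; ring
  have b1 : ‖E1 g Q (pt r η τ)‖ ≤ 2 * M ^ 2 / τ ^ 2 := by
    refine (e1_le g Q _).trans ?_
    rw [le_div_iff₀ (by positivity)]
    exact cone3 hC h0 h1 (by simp) (by simp; linarith) (by rw [pt_re]; linarith)
  have b2 := norm_le_insert' (E1 g Q (pt r η t)) (E1 g Q (pt r η τ))
  have b3 : 0 ≤ α / 2 * (τ ^ 2)⁻¹ := by positivity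
  have b4 : 0 ≤ β * t := by positivity
  have b5 : α / (2 * t ^ 2) = α / 2 * (t ^ 2)⁻¹ := by field_simp
  rw [b5]
  linarith

/-- the numerical part -/
theorem num {C₄ c₄ c₂ N τ M G t u : ℝ} (hC : 1 ≤ C₄) (c0 : 0 < c₂) (c1 : c₂ ≤ c₄)
    (c2 : c₂ * (400 * C₄) ≤ 1) (hN : 1 ≤ N) (h0 : 0 < τ) (t0 : τ ≤ 8 * N ^ 2 * t) (t1 : t ≤ τ)
    (hM : 10 ^ 8 * C₄ ^ 4 * N ^ 8 ≤ c₂ * M) (hG : 20 * C₄ * M ≤ G * t) (u0 : 0 < u)
    (hu : u ^ 2 * G ^ 3 * τ = c₂) :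
    (u < τ ∧ u * G ≤ 1 / 40) ∧
    (u * N ^ 4 ≤ c₄ * τ ∧ u ^ 2 * M ^ 2 * N ^ 4 ≤ c₄ * τ ^ 2 ∧ u ^ 2 * M ^ 3 ≤ c₄ * τ ^ 2) ∧
    2 * M ^ 2 / τ ^ 2 + C₄ ^ 2 * (τ / u + M ^ 2) / (2 * t ^ 2) + C₄ * G ^ 5 * u ^ 2 * τ ≤
      9 * G ^ 2 / 800 := by
  have tp : 0 < t := by
    by_contra hn
    have := mul_nonpos_of_nonneg_of_nonpos (by positivity : 0 ≤ 8 * N ^ 2) (not_lt.1 hn)
    linarith
  have c3 : c₂ ≤ 1 / 400 := by nlinarith
  have n4 : 1 ≤ N ^ 4 := one_le_pow₀ hN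
  have n8 : N ^ 4 ≤ N ^ 8 := pow_le_pow_right₀ hN (by norm_num)
  have k4 : 1 ≤ C₄ ^ 4 := one_le_pow₀ hC
  have m0 : N ^ 8 ≤ c₂ * M := by nlinarith
  have m1 : 1 ≤ c₂ * M := by linarith
  have M0 : 0 < M := by
    by_contra hn
    have := mul_nonpos_of_nonneg_of_nonpos c0.le (not_lt.1 hn)
    linarith
  have m2 : c₂ * M ≤ M := by nlinarith
  have M1 : 1 ≤ M := by linarith
  have g1 : M ≤ G * t := by nlinarith
  have G0 : 0 < G := by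
    by_contra hn
    have := mul_nonpos_of_nonpos_of_nonneg (not_lt.1 hn) tp.le
    linarith
  have g2 : G * t ≤ G * τ := by gcongr
  have g3 : u ^ 2 * M ^ 3 ≤ c₂ * τ ^ 2 := by
    calc _ ≤ u ^ 2 * (G * τ) ^ 3 := by gcongr; linarith
      _ = _ := by rw [← hu]; ring
  have m3 : M ≤ M ^ 3 := le_self_pow₀ M1 (by norm_num)
  refine ⟨⟨?_, ?_⟩, ⟨?_, ?_, ?_⟩, ?_⟩
  · refine lt_of_pow_lt_pow_left₀ 2 h0.le ?_
    have : u ^ 2 * 1 ≤ u ^ 2 * M ^ 3 := by gcongr; linarith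
    nlinarith [sq_pos_of_pos h0]
  · refine le_of_sq_le_sq ?_ (by norm_num)
    have a1 : (u * G) ^ 2 * (G * τ) = c₂ := by rw [← hu]; ring
    have a2 : (u * G) ^ 2 * 20 ≤ (u * G) ^ 2 * (G * τ) := by gcongr; nlinarith
    linarith
  · refine le_of_sq_le_sq ?_ (by nlinarith)
    calc (u * N ^ 4) ^ 2 = u ^ 2 * N ^ 8 := by ring
      _ ≤ u ^ 2 * (c₂ * M ^ 3) := by gcongr; nlinarith
      _ = c₂ * (u ^ 2 * M ^ 3) := by ring
      _ ≤ c₄ * (c₄ * τ ^ 2) := by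
        have : c₂ * τ ^ 2 ≤ c₄ * τ ^ 2 := by gcongr
        exact mul_le_mul c1 (g3.trans this) (by positivity) (by linarith)
      _ = _ := by ring
  · calc _ ≤ u ^ 2 * M ^ 2 * M := by gcongr; linarith
      _ = u ^ 2 * M ^ 3 := by ring
      _ ≤ _ := g3.trans (by gcongr)
  · exact g3.trans (by gcongr)
  · have a0 : 400 * C₄ ^ 2 * M ^ 2 ≤ G ^ 2 * t ^ 2 := by
      calc _ = (20 * C₄ * M) ^ 2 := by ring
        _ ≤ (G * t) ^ 2 := by gcongr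
        _ = _ := by ring
    have k2 : 1 ≤ C₄ ^ 2 := one_le_pow₀ hC
    have a1 : 2 * M ^ 2 / τ ^ 2 ≤ G ^ 2 / 200 := by
      rw [div_le_div_iff₀ (by positivity) (by norm_num)]
      have b1 : G ^ 2 * t ^ 2 ≤ G ^ 2 * τ ^ 2 := by gcongr
      have b2 : 400 * 1 * M ^ 2 ≤ 400 * C₄ ^ 2 * M ^ 2 := by gcongr
      linarith
    have a2 : C₄ ^ 2 * M ^ 2 / (2 * t ^ 2) ≤ G ^ 2 / 800 := by
      rw [div_le_div_iff₀ (by positivity) (by norm_num)]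
      linarith
    have a3 : C₄ * G ^ 5 * u ^ 2 * τ ≤ G ^ 2 / 400 := by
      have e : C₄ * G ^ 5 * u ^ 2 * τ = G ^ 2 * (c₂ * C₄) := by rw [← hu]; ring
      rw [e, div_eq_mul_one_div]
      gcongr
      linarith
    have a4 : C₄ ^ 2 * (τ / u) / (2 * t ^ 2) ≤ G ^ 2 / 400 := by
      have b1 : 200 * C₄ ^ 2 * τ ≤ u * G ^ 2 * t ^ 2 := by
        refine le_of_sq_le_sq (le_of_mul_le_mul_right ?_ h0) (by positivity)
        have e : (u * G ^ 2 * t ^ 2) ^ 2 * τ = c₂ * (G * t) * t ^ 3 := by rw [← hu]; ring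
        have n6 : N ^ 6 ≤ N ^ 8 := pow_le_pow_right₀ hN (by norm_num)
        calc (200 * C₄ ^ 2 * τ) ^ 2 * τ = 40000 * C₄ ^ 4 * τ ^ 3 := by ring
          _ ≤ 40000 * C₄ ^ 4 * (8 * N ^ 2 * t) ^ 3 := by gcongr
          _ = 20480000 * C₄ ^ 4 * N ^ 6 * t ^ 3 := by ring
          _ ≤ 10 ^ 8 * C₄ ^ 4 * N ^ 8 * t ^ 3 := by gcongr; norm_num
          _ ≤ c₂ * M * t ^ 3 := by gcongr
          _ ≤ c₂ * (G * t) * t ^ 3 := by gcongr
          _ = _ := e.symm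
      rw [div_le_div_iff₀ (by positivity) (by norm_num), ← mul_div_assoc, div_mul_eq_mul_div,
        div_le_iff₀ u0]
      linarith
    rw [mul_add, add_div]
    have : 0 ≤ G ^ 2 := by positivity
    linarith

theorem key (hI : S_INT) (hE : S_GE) {C₄ c₄ c₂ lam u₀ : ℝ} {n : ℕ} (hC₄ : 1 ≤ C₄) (c0 : 0 < c₂)
    (c1 : c₂ ≤ c₄) (c2 : c₂ * (400 * C₄) ≤ 1) (hn : 1 ≤ n) (hG : GQ r g Q)
    (hT : TDA r g Q lam C₄ c₄ u₀) (h0 : 0 < τ) (h1 : τ ≤ r / 4) (h2 : τ ≤ u₀)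
    (hM : 10 ^ 8 * C₄ ^ 4 * (n : ℝ) ^ 8 ≤ c₂ * M) (M1 : 100 ≤ M) (hC : Cone r g Q ξ τ M) :
    ∀ z ∈ Tent r ξ τ (n ^ 2), Gs g Q z * de r ξ τ (n ^ 2) z ^ 2 ≤ (10 * C₄ * M) ^ 2 := by
  have hN : (1 : ℝ) ≤ n := by exact_mod_cast hn
  have hT1 : (1 : ℝ) ≤ (n : ℝ) ^ 2 := one_le_pow₀ hN
  obtain ⟨y, hy, hmax⟩ := ex_max (ξ := ξ) hG h0 h1 hT1
  refine fun z hz => (hmax z hz).trans ?_
  by_contra hcon
  rw [not_le] at hcon
  have d1 : de r ξ τ (n ^ 2) y ≤ τ / 2 - |y.re - ξ| := min_le_left _ _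
  have d2 : de r ξ τ (n ^ 2) y ≤ r - y.im - τ / (8 * n ^ 2) := min_le_right _ _
  have d0 : 0 ≤ de r ξ τ (n ^ 2) y := le_min (by linarith [hy.1]) (by linarith [hy.2.1])
  generalize de r ξ τ (n ^ 2) y = d at hmax hcon d0 d1 d2
  obtain ⟨G, G0, eG⟩ : ∃ G : ℝ, 0 ≤ G ∧ Gs g Q y = G ^ 2 / 4 :=
    ⟨2 * √(Gs g Q y), by positivity, by rw [mul_pow, Real.sq_sqrt (gs_nn g Q y)]; ring⟩
  have e1 : Gs g Q y * d ^ 2 = (G * (d / 2)) ^ 2 := by rw [eG]; ring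
  rw [e1] at hcon hmax
  have a1 : 10 * C₄ * M < G * (d / 2) := lt_of_pow_lt_pow_left₀ 2 (by positivity) hcon
  have a0 : M ≤ C₄ * M := le_mul_of_one_le_left (by linarith) hC₄
  have a2 : 1000 ≤ 10 * C₄ * M := by linarith
  have dp : 0 < d := lt_of_le_of_ne d0 (by rintro rfl; linarith)
  have Gp : 0 < G := lt_of_le_of_ne G0 (by rintro rfl; linarith)
  have hp : 0 < τ / (8 * (n : ℝ) ^ 2) := by positivity
  have a3 : G * d ≤ G * (r - y.im) := by gcongr; linarith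
  have a4 : G * (r - y.im) ≤ G * τ := by gcongr; exact hy.2.2
  obtain ⟨u, u0, hu⟩ : ∃ u : ℝ, 0 < u ∧ u ^ 2 * G ^ 3 * τ = c₂ :=
    ⟨√(c₂ / (G ^ 3 * τ)), by positivity, by rw [Real.sq_sqrt (by positivity)]; field_simp⟩
  obtain ⟨⟨b1, b2⟩, b3, b4⟩ := num hC₄ c0 c1 c2 hN h0 (t := r - y.im)
    (by have := hy.2.1; rw [div_le_iff₀ (by positivity)] at this; linarith) hy.2.2 hM
    (by linarith) u0 hu
  obtain ⟨P, hP⟩ := hT n ξ τ M u hn h0 h1 (by linarith) hC (b1.trans_le h2) ⟨u0, b3⟩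
  have hcm : ∀ s ∈ Icc (r - y.im) τ, Cm r g Q (pt r y.re s) (d / 2) G := fun s hs =>
    calm hC h0 h1 hT1 hmax dp d1 (by linarith [hs.1]) hs.2 (by rw [mul_pow]) (by
      have : 2 * M ≤ G * τ := by linarith
      calc 2 * M ^ 2 ≤ (2 * M) ^ 2 := by linarith [sq_nonneg M]
        _ ≤ (G * τ) ^ 2 := by gcongr
        _ = _ := by ring) (by linarith)
  have b5 := e1_bd hI hG hC h0 h1 hT1 hC₄ u0 hP hy.1 hy.2.1 hy.2.2 hcm b2
  have b6 := hcm _ ⟨le_rfl, hy.2.2⟩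
  rw [pt_self] at b5 b6
  have b7 := hE r g Q y (d / 2) G (G / 8) hG b6 (by positivity) (by
    have : 1000 ^ 2 ≤ (G * (d / 2)) ^ 2 := by gcongr; linarith
    calc 128 * G ≤ G / 512 * 1000 ^ 2 := by linarith
      _ ≤ G / 512 * (G * (d / 2)) ^ 2 := by gcongr
      _ = _ := by ring)
  have : 0 < G ^ 2 := by positivity
  linarith

end SupP

open SupP in
theorem supb (hI : S_INT) (hE : S_GE) : S_SUP := by
  intro C₄ c₄ hC₄ hc
  have c0 : 0 < min c₄ (1 / (400 * C₄)) := lt_min hc (by positivity)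
  have c2 : min c₄ (1 / (400 * C₄)) * (400 * C₄) ≤ 1 := by
    rw [← le_div_iff₀ (by positivity)]
    exact min_le_right _ _
  have k : 1 ≤ C₄ ^ 2 := one_le_pow₀ hC₄
  refine ⟨6400 * C₄ ^ 2, by linarith, fun n hn =>
    ⟨max 100 (10 ^ 8 * C₄ ^ 4 * (n : ℝ) ^ 8 / min c₄ (1 / (400 * C₄))), ?_⟩⟩
  intro r lam u₀ ξ τ M g Q hG hT h0 h1 h2 hA hC y a b c
  have h := key hI hE hC₄ c0 (min_le_left _ _) c2 hn hG hT h0 h1 h2
    (by rw [mul_comm _ M, ← div_le_iff₀ c0]; exact (le_max_right _ _).trans hA)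
    ((le_max_left _ _).trans hA) hC
  have hp : 0 < τ / (8 * (n : ℝ) ^ 2) := by positivity
  have e : τ / (4 * (n : ℝ) ^ 2) = 2 * (τ / (8 * (n : ℝ) ^ 2)) := by field_simp; norm_num
  rw [e] at b
  rcases le_total (r - y.im) τ with d | d
  · have h3 := h y ⟨by linarith, by linarith, d⟩
    have h4 : (r - y.im) / 8 ≤ de r ξ τ (n ^ 2) y := le_min (by linarith) (by linarith)
    have h5 := mul_le_mul_of_nonneg_left (pow_le_pow_left₀ (by linarith) h4 2) (gs_nn g Q y)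
    linarith
  · have h3 := cone2 hC h0 h1 d (by linarith) (by linarith)
    nlinarith [sq_nonneg M]

end Vale.Agent.P097M
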