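import Vale.Agent.P097M.Defs
import Vale.Agent.P097N.K

/-!
# P097M, row 1202: the fourth coefficient of the slope function
-/

set_option linter.all false

noncomputable section

namespace Vale.Agent.P097M

open Filter Topology Set Metric

namespace Tay

theorem chain {U : Set ℂ} (hU : IsOpen U) (f : ℕ → ℂ → ℂ) (n : ℕ)
    (h : ∀ i < n, ∀ z ∈ U, HasDerivAt (f i) (f (i + 1) z) z) :
    ∀ i ≤ n, ∀ z ∈ U, iteratedDeriv i (f 0) z = f i z := by
  intro i
  induction i with
  | zero => intro _ z _; rfl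
  | succ i ih =>
    intro hi z hz
    have e : iteratedDeriv i (f 0) =ᶠ[𝓝 z] f i :=
      eventually_of_mem (hU.mem_nhds hz) (ih (by omega))
    rw [iteratedDeriv_succ, e.deriv_eq, (h i (by omega) z hz).deriv]

/-- the expansion of a solution of `t'' = Q t + k` -/
theorem ode {U : Set ℂ} (hU : IsOpen U) {y : ℂ} (hy : y ∈ U) {Q t0 t1 k0 k1 k2 k3 : ℂ → ℂ}
    (dQ : DifferentiableOn ℂ Q U) (d0 : ∀ z ∈ U, HasDerivAt t0 (t1 z) z)
    (d1 : ∀ z ∈ U, HasDerivAt t1 (Q z * t0 z + k0 z) z) (e0 : ∀ z ∈ U, HasDerivAt k0 (k1 z) z)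
    (e1 : ∀ z ∈ U, HasDerivAt k1 (k2 z) z) (e2 : ∀ z ∈ U, HasDerivAt k2 (k3 z) z)
    (h0 : t0 y = 0) : ∃ (F : ℂ → ℂ) (e : ℂ), ContinuousAt F 0 ∧ ∀ s, t0 (y + s) =
      s * t1 y + s ^ 2 / 2 * k0 y + s ^ 3 / 6 * (Q y * t1 y + k1 y) +
        s ^ 4 / 24 * (2 * deriv Q y * t1 y + Q y * k0 y + k2 y) +
        s ^ 5 / 120 * (e * t1 y + 3 * deriv Q y * k0 y + Q y * k1 y + k3 y) + s ^ 6 * F s := by
  have aQ : ∀ z ∈ U, AnalyticAt ℂ Q z := fun z hz => dQ.analyticAt (hU.mem_nhds hz)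
  have q0 := fun z hz => (aQ z hz).differentiableAt.hasDerivAt
  have q1 := fun z hz => (aQ z hz).deriv.differentiableAt.hasDerivAt
  have q2 := fun z hz => (aQ z hz).deriv.deriv.differentiableAt.hasDerivAt
  set Q1 := deriv Q
  set Q2 := deriv Q1
  set Q3 := deriv Q2
  let t2 : ℂ → ℂ := fun z => Q z * t0 z + k0 z
  let t3 : ℂ → ℂ := fun z => Q1 z * t0 z + Q z * t1 z + k1 z
  let t4 : ℂ → ℂ := fun z => Q2 z * t0 z + 2 * (Q1 z * t1 z) + Q z * t2 z + k2 z
  let t5 : ℂ → ℂ := fun z => Q3 z * t0 z + 3 * (Q2 z * t1 z) + 3 * (Q1 z * t2 z) + Q z * t3 z + k3 z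
  have d2 : ∀ z ∈ U, HasDerivAt t2 (t3 z) z := fun z hz =>
    ((q0 z hz).mul (d0 z hz)).add (e0 z hz)
  have d3 : ∀ z ∈ U, HasDerivAt t3 (t4 z) z := fun z hz =>
    ((((q1 z hz).mul (d0 z hz)).add ((q0 z hz).mul (d1 z hz))).add (e1 z hz)).congr_deriv
      (by simp only [t4, t2]; ring)
  have d4 : ∀ z ∈ U, HasDerivAt t4 (t5 z) z := fun z hz =>
    (((((q2 z hz).mul (d0 z hz)).add (((q1 z hz).mul (d1 z hz)).const_mul 2)).add
      ((q0 z hz).mul (d2 z hz))).add (e2 z hz)).congr_deriv (by simp only [t5, t2]; ring)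
  have key := chain hU (fun i => [t0, t1, t2, t3, t4, t5].getD i 0) 5 (fun i hi => by
    interval_cases i
    exacts [d0, d1, d2, d3, d4])
  have a0 : AnalyticAt ℂ t0 y :=
    DifferentiableOn.analyticAt (fun z hz => (d0 z hz).differentiableAt.differentiableWithinAt)
      (hU.mem_nhds hy)
  have a1 : AnalyticAt ℂ (fun s => t0 (y + s)) 0 :=
    a0.comp_of_eq (analyticAt_const.add analyticAt_id) (add_zero y)
  obtain ⟨F, hF, h⟩ := a1.exists_eq_sum_add_pow_mul 6
  refine ⟨F, 3 * Q2 y + Q y ^ 2, hF.continuousAt, fun s => ?_⟩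
  have k : ∀ i ≤ 5, iteratedDeriv i (fun s => t0 (y + s)) 0 =
      [t0, t1, t2, t3, t4, t5].getD i 0 y := fun i hi => by
    rw [iteratedDeriv_comp_const_add]
    simpa using key i hi y hy
  rw [h s]
  simp only [Finset.sum_range_succ, Finset.sum_range_zero, k 0, k 1, k 2, k 3, k 4, k 5,
    Nat.reduceLeDiff, le_refl, smul_eq_mul]
  simp [t2, t3, t4, t5, h0, Nat.factorial]
  ring

theorem lim {α β v w : ℂ → ℂ} (hα : ContinuousAt α 0) (hβ : ContinuousAt β 0) {p q c : ℂ}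
    (hc : c ≠ 0) (hv : ∀ s, v s = c * s ^ 2 / 2 * (1 + p * s ^ 2 + s ^ 3 * α s))
    (hw : ∀ s, w s = -c * s * (1 + q * s ^ 2 + s ^ 3 * β s)) :
    Tendsto (fun s => (-2 * v s / w s + -2 * v (-s) / w (-s)) / s ^ 4) (𝓝[≠] 0)
      (𝓝 (2 * (α 0 - β 0))) := by
  have ng : ∀ {f : ℂ → ℂ}, ContinuousAt f 0 → ∃ f' : ℂ → ℂ, ContinuousAt f' 0 ∧ ∀ s, f (-s) = f' s :=
    fun hf => ⟨_, ContinuousAt.comp (by simpa using hf) continuous_neg.continuousAt, fun _ => rfl⟩
  obtain ⟨α', hα', a⟩ := ng hα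
  obtain ⟨β', hβ', b⟩ := ng hβ
  have b1 : ContinuousAt (fun s => 1 + q * s ^ 2 + s ^ 3 * β s) 0 := by fun_prop
  have b2 : ContinuousAt (fun s => 1 + q * s ^ 2 - s ^ 3 * β' s) 0 := by fun_prop
  have n : ContinuousAt (fun s => ((1 + q * s ^ 2) * (α s + α' s) -
      (1 + p * s ^ 2) * (β s + β' s) + s ^ 3 * (α' s * β s - α s * β' s)) /
      ((1 + q * s ^ 2 + s ^ 3 * β s) * (1 + q * s ^ 2 - s ^ 3 * β' s))) 0 :=
    ContinuousAt.div (by fun_prop) (b1.mul b2) (by simp)
  have t := (n.tendsto.mono_left (nhdsWithin_le_nhds (s := {0}ᶜ))).congr' (f₂ := fun s =>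
      (-2 * v s / w s + -2 * v (-s) / w (-s)) / s ^ 4) (by
    filter_upwards [self_mem_nhdsWithin, mem_nhdsWithin_of_mem_nhds (b1.eventually_ne
      (y := 0) (by simp)), mem_nhdsWithin_of_mem_nhds (b2.eventually_ne (y := 0) (by simp))]
      with s h0 h1 h2
    have h0' : s ≠ 0 := h0
    have e1 : -2 * v s / w s = s * (1 + p * s ^ 2 + s ^ 3 * α s) / (1 + q * s ^ 2 + s ^ 3 * β s) := by
      rw [hv, hw, div_eq_div_iff (mul_ne_zero (mul_ne_zero (neg_ne_zero.2 hc) h0') h1) h1]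
      ring
    have e2 : -2 * v (-s) / w (-s) =
        -s * (1 + p * s ^ 2 - s ^ 3 * α' s) / (1 + q * s ^ 2 - s ^ 3 * β' s) := by
      have e : w (-s) = c * s * (1 + q * s ^ 2 - s ^ 3 * β' s) := by rw [hw, b]; ring
      rw [hv, e, a, div_eq_div_iff (mul_ne_zero (mul_ne_zero hc h0') h2) h2]
      ring
    rw [e1, e2, div_add_div _ _ h1 h2, div_div, div_eq_div_iff (mul_ne_zero h1 h2)
      (mul_ne_zero (mul_ne_zero h1 h2) (pow_ne_zero _ h0'))]
    ring)
  refine t.trans (le_of_eq (congrArg _ ?_))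
  rw [← a, ← b]
  simp
  ring

end Tay

open P097N P097N.K Complex

theorem tay : S_TAY := by
  intro θ h Q c U C y hy
  have t0 := fun z hz => (aθ C (z := z) hz).differentiableAt.hasDerivAt
  have t1 := fun z hz => (aθ C (z := z) hz).deriv.differentiableAt.hasDerivAt
  have t2 : ∀ z ∈ U, HasDerivAt (deriv (deriv θ)) (Q z * deriv θ z) z := fun z hz =>
    C.hq z hz ▸ (aθ C hz).deriv.deriv.differentiableAt.hasDerivAt
  have s0 := fun z hz => (ah C (z := z) hz).differentiableAt.hasDerivAt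
  have s1 := fun z hz => (ah C (z := z) hz).deriv.differentiableAt.hasDerivAt
  have s2 := fun z hz => third C hz ▸ (ah C (z := z) hz).deriv.deriv.differentiableAt.hasDerivAt
  have co : ∀ z ∈ U, HasDerivAt (fun z => cos (θ y - θ z)) (deriv θ z * sin (θ y - θ z)) z :=
    fun z hz => ((t0 z hz).const_sub (θ y)).ccos.congr_deriv (by ring)
  have si : ∀ z ∈ U, HasDerivAt (fun z => sin (θ y - θ z)) (-(deriv θ z * cos (θ y - θ z))) z :=
    fun z hz => ((t0 z hz).const_sub (θ y)).csin.congr_deriv (by ring)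
  have od := C.ode
  have hE : deriv (E1 (deriv θ) Q) y = deriv Q y + deriv θ y * deriv (deriv θ) y / 4 :=
    (((aQ C hy).differentiableAt.hasDerivAt.add (((t1 y hy).pow 2).div_const 8)).congr_deriv
      (by simp; ring)).deriv
  set g := deriv θ
  set g1 := deriv g
  set h1 := deriv h
  set h2 := deriv h1
  obtain ⟨F, e, hF, hv⟩ := Tay.ode C.op hy C.dQ (t0 := fun z => kk θ h y z)
    (t1 := fun z => g1 z * h y - g1 z * h z * cos (θ y - θ z) -
      (g z ^ 2 * h z + h2 z) * sin (θ y - θ z))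
    (k0 := fun z => c * cos (θ y - θ z)) (k1 := fun z => c * (g z * sin (θ y - θ z)))
    (k2 := fun z => c * (g1 z * sin (θ y - θ z) - g z ^ 2 * cos (θ y - θ z)))
    (k3 := fun z => c * ((Q z * g z - g z ^ 3) * sin (θ y - θ z) -
      3 * g z * g1 z * cos (θ y - θ z)))
    (fun z hz => ((((t1 z hz).mul_const (h y)).sub (((t1 z hz).mul (s0 z hz)).mul (co z hz))).sub
      ((s1 z hz).mul (si z hz))).congr_deriv (by simp only [Pi.mul_apply]; ring))
    (fun z hz => ((((t2 z hz).mul_const (h y)).sub (((t2 z hz).mul (s0 z hz)).mul (co z hz))).sub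
      (((((t1 z hz).pow 2).mul (s0 z hz)).add (s2 z hz)).mul (si z hz))).congr_deriv (by
        rw [← od z hz, kk]
        simp only [Pi.mul_apply, Pi.add_apply, Pi.pow_apply, Nat.cast_ofNat, Nat.add_one_sub_one]
        ring))
    (fun z hz => (co z hz).const_mul c)
    (fun z hz => (((t1 z hz).mul (si z hz)).const_mul c).congr_deriv (by ring))
    (fun z hz => ((((t2 z hz).mul (si z hz)).sub (((t1 z hz).pow 2).mul (co z hz))).const_mul
      c).congr_deriv (by
        simp only [Pi.pow_apply, Nat.cast_ofNat, Nat.add_one_sub_one]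
        ring))
    (by simp [kk, g])
  obtain ⟨G, e', hG, hw⟩ := Tay.ode C.op hy C.dQ (t0 := fun z => k1 θ h y z)
    (t1 := fun z => g1 z * h1 y + g1 z * h z * g y * sin (θ y - θ z) -
      (g z ^ 2 * h z + h2 z) * g y * cos (θ y - θ z))
    (k0 := fun z => -(c * g y) * sin (θ y - θ z)) (k1 := fun z => c * g y * (g z * cos (θ y - θ z)))
    (k2 := fun z => c * g y * (g1 z * cos (θ y - θ z) + g z ^ 2 * sin (θ y - θ z)))
    (k3 := fun z => c * g y * ((Q z * g z - g z ^ 3) * cos (θ y - θ z) +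
      3 * g z * g1 z * sin (θ y - θ z)))
    (fun z hz => ((((t1 z hz).mul_const (h1 y)).add ((((t1 z hz).mul (s0 z hz)).mul_const
      (g y)).mul (si z hz))).sub (((s1 z hz).mul_const (g y)).mul (co z hz))).congr_deriv (by
        simp only [Pi.mul_apply]; ring))
    (fun z hz => ((((t2 z hz).mul_const (h1 y)).add ((((t2 z hz).mul (s0 z hz)).mul_const
      (g y)).mul (si z hz))).sub ((((((t1 z hz).pow 2).mul (s0 z hz)).add (s2 z hz)).mul_const
        (g y)).mul (co z hz))).congr_deriv (by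
        rw [← od z hz, k1]
        simp only [Pi.mul_apply, Pi.add_apply, Pi.pow_apply, Nat.cast_ofNat, Nat.add_one_sub_one]
        ring))
    (fun z hz => ((si z hz).const_mul (-(c * g y))).congr_deriv (by ring))
    (fun z hz => (((t1 z hz).mul (co z hz)).const_mul (c * g y)).congr_deriv (by ring))
    (fun z hz => ((((t2 z hz).mul (co z hz)).add (((t1 z hz).pow 2).mul (si z hz))).const_mul
      (c * g y)).congr_deriv (by
        simp only [Pi.pow_apply, Nat.cast_ofNat, Nat.add_one_sub_one]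
        ring))
    (by simp [k1, g, h1, mul_comm])
  have c0 := C.c0
  have w1 : g1 y * h1 y - (g y ^ 2 * h y + h2 y) * g y = -c := by rw [← od y hy]; ring
  simp only [sub_self, cos_zero, sin_zero, mul_zero, mul_one, add_zero, sub_zero, w1] at hv hw
  have := Tay.lim (v := fun s => kk θ h y (y + s)) (w := fun s => k1 θ h y (y + s))
    (α := fun s => (deriv Q y - g y * g1 y) / 20 + s * (2 * F s / c))
    (β := fun s => (2 * deriv Q y - g y * g1 y) / 24 + s * ((e' * c - Q y * (c * g y * g y) -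
      c * g y * (Q y * g y - g y ^ 3)) / (120 * c) - s * G s / c))
    (p := (Q y - g y ^ 2) / 12) (q := (Q y - g y ^ 2) / 6) (by fun_prop) (by fun_prop) c0
    (fun s => by rw [hv]; field_simp; ring) (fun s => by rw [hw]; field_simp; ring)
  have e : -(deriv (E1 g Q) y) / 15 = 2 * ((deriv Q y - g y * g1 y) / 20 + 0 * (2 * F 0 / c) -
      ((2 * deriv Q y - g y * g1 y) / 24 + 0 * ((e' * c - Q y * (c * g y * g y) -
      c * g y * (Q y * g y - g y ^ 3)) / (120 * c) - 0 * G 0 / c))) := by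
    rw [hE]; ring
  rw [e]
  simpa only [Ph, sub_eq_add_neg] using this

end Vale.Agent.P097M
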