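import Vale.Agent.P097M.Defs
import Vale.Agent.P097N.Root

/-!
# P097M: the data in the tent
-/

set_option linter.all false

noncomputable section

namespace Vale.Agent.P097M

open Filter Topology Set Metric
open Vale.Agent.P097T (Strip)

namespace Td

variable {r C u R : ℝ} {Lw : ℂ → ℂ → ℂ → Prop} {Y : ℂ → ℂ} {c z : ℂ}

/-- the holomorphic function with real part `PP` -/
def FF (C u : ℝ) (Y : ℂ → ℂ) (x : ℂ) : ℂ := Complex.I * (Y x - x) + (C * u : ℝ)

theorem re_FF (x : ℂ) : (FF C u Y x).re = PP C u Y x := by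
  simp only [FF, PP, Complex.add_re, Complex.I_mul_re, Complex.ofReal_re]
  ring

theorem disc (L : LF r C u Lw Y) (h1 : R ≤ c.im) (h2 : c.im + R ≤ r - C * u) :
    DifferentiableOn ℂ Y (ball c R) ∧ DifferentiableOn ℂ (FF C u Y) (ball c R) ∧
      ∀ z ∈ ball c R, 0 ≤ (FF C u Y z).re := by
  have k : ∀ z ∈ ball c R, 0 ≤ z.im ∧ z.im < r - C * u := fun z hz => by
    have := abs_lt.1 ((Complex.abs_im_le_norm _).trans_lt (mem_ball_iff_norm.1 hz))
    rw [Complex.sub_im] at this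
    exact ⟨by linarith [this.1], by linarith [this.2]⟩
  have d : DifferentiableOn ℂ Y (ball c R) :=
    L.d.mono fun z hz => (abs_of_nonneg (k z hz).1).trans_lt (k z hz).2
  exact ⟨d, ((d.sub differentiableOn_id).const_mul _).add_const _,
    fun z hz => re_FF z ▸ L.pos z (k z hz).1 (k z hz).2⟩

theorem har (h : S_HAR) (L : LF r C u Lw Y) (h1 : R ≤ c.im) (h2 : c.im + R ≤ r - C * u) {d : ℝ}
    (hz : ‖z - c‖ ≤ d) (hd : d < R) : PP C u Y z * (R - d) ≤ (R + d) * PP C u Y c ∧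
      PP C u Y c * (R - d) ≤ (R + d) * PP C u Y z ∧
      ‖Y z - z - (Y c - c)‖ * (R - d) ≤ 2 * d * PP C u Y c := by
  obtain ⟨-, d1, d2⟩ := disc L h1 h2
  have m := mem_ball_iff_norm.2 (hz.trans_lt hd)
  obtain ⟨a, b, e⟩ := h _ c R d1 d2 z m
  have p := d2 z m
  have q := d2 c (mem_ball_self ((norm_nonneg _).trans_lt (hz.trans_lt hd)))
  rw [show FF C u Y z - FF C u Y c = Complex.I * (Y z - z - (Y c - c)) by unfold FF; ring, norm_mul,
    Complex.norm_I, one_mul] at e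
  simp only [re_FF] at a b e p q
  have := mul_le_mul_of_nonneg_left hz p
  have := mul_le_mul_of_nonneg_left hz q
  have := mul_le_mul_of_nonneg_left hz (norm_nonneg (Y z - z - (Y c - c)))
  exact ⟨by linarith, by linarith, by linarith⟩

theorem nrm (z c : ℂ) : ‖z - c‖ ≤ |z.re - c.re| + |z.im - c.im| :=
  Complex.norm_le_abs_re_add_abs_im _

theorem blocks (f : ℕ → ℝ) (n : ℕ) {D : ℝ} (h : ∀ p < n, ∑ i ∈ Finset.range n, f (p * n + i) ≤ D) :
    ∀ p ≤ n, ∑ m ∈ Finset.range (p * n), f m ≤ p * D := by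
  intro p
  induction p with
  | zero => simp
  | succ p ih =>
    intro k
    rw [Nat.succ_mul, Finset.sum_range_add, Nat.cast_succ, add_one_mul]
    exact add_le_add (ih (Nat.le_of_succ_le k)) (h p k)

/-- the numbers -/
structure Cx (r C u a τ k ξ : ℝ) (Lw : ℂ → ℂ → ℂ → Prop) (Y : ℂ → ℂ) : Prop where
  L : LF r C u Lw Y
  a0 : 0 < a
  a1 : 2 * a ≤ τ
  τ1 : τ ≤ r / 4
  c0 : 0 ≤ C * u
  c1 : C * u ≤ k
  u1 : u ≤ k
  k1 : k ≤ 4 / 10 ^ 5 * a
  k2 : k * τ ≤ 8 / 10 ^ 5 * a ^ 2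
  col : ∀ η, |η - ξ| ≤ τ → PP C u Y (pt r η (2 * τ)) ≤ k ∧ ‖Y (pt r η (2 * τ)) - pt r η (2 * τ)‖ ≤ k

variable {a τ k ξ : ℝ}

theorem key (hH : S_HAR) (H : Cx r C u a τ k ξ Lw Y) (h1 : |z.re - ξ| ≤ τ) (h2 : a / 8 ≤ r - z.im)
    (h3 : r - z.im ≤ 2 * τ) :
    PP C u Y z * (r - z.im) ≤ 8 * (k * τ) ∧ ‖Y z - z‖ * (r - z.im) ≤ 10 * (k * τ) := by
  obtain ⟨L, a0, a1, τ1, c0, c1, -, k1, -, col⟩ := H
  obtain ⟨e1, -, e2⟩ := har hH L (c := pt r z.re (2 * τ)) (z := z) (R := 2 * τ - C * u)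
    (d := 2 * τ - (r - z.im)) (by rw [pt_im]; linarith) (by rw [pt_im]; linarith)
    ((nrm _ _).trans_eq (by
      rw [pt_re, pt_im, sub_self, abs_zero, zero_add, abs_of_nonneg (by linarith)]; ring))
    (by linarith)
  have p := L.pos z (by linarith) (by linarith)
  have q := L.pos (pt r z.re (2 * τ)) (by rw [pt_im]; linarith) (by rw [pt_im]; linarith)
  have k4 := (norm_le_norm_add_norm_sub' (Y z - z) _).trans (add_le_add (col _ h1).2 le_rfl)
  have k5 : C * u ≤ (r - z.im) / 2 := by linarith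
  have k6 := mul_le_mul_of_nonneg_left (col _ h1).1 (show 0 ≤ τ by linarith)
  have k7 := mul_nonneg q (show 0 ≤ r - z.im by linarith)
  have k8 := mul_le_mul_of_nonneg_left k5 (norm_nonneg (Y z - z - (Y (pt r z.re (2 * τ)) -
    pt r z.re (2 * τ))))
  have k9 := mul_le_mul_of_nonneg_right k4 (show 0 ≤ r - z.im by linarith)
  have k0 := mul_le_mul_of_nonneg_left h3 (c0.trans c1)
  exact ⟨by linarith [mul_le_mul_of_nonneg_left k5 p, mul_nonneg q c0], by linarith⟩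

theorem pre (hH : S_HAR) (H : Cx r C u a τ k ξ Lw Y) {y : ℂ} {t : ℝ} (ht : t = r - y.im)
    (h1 : |y.re - ξ| ≤ τ / 2) (h2 : a / 4 ≤ t) (h3 : t ≤ τ) : ∃ x, Y x = y ∧ ‖x - y‖ ≤ t / 4 / 8 ∧
      PP C u Y x ≤ (r - x.im) / 32 ∧ PP C u Y x ≤ 2 * PP C u Y y := by
  have ⟨L, a0, a1, τ1, c0, c1, _, k1, k2, _⟩ := H
  have t0 : 0 < t := by linarith
  have t2 : a ^ 2 ≤ 16 * t ^ 2 := by nlinarith
  have bl : ∀ z : ℂ, ‖z - y‖ ≤ t / 4 → |z.re - ξ| ≤ τ ∧ |z.im - y.im| ≤ ‖z - y‖ := fun z hz =>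
    ⟨(abs_sub_le _ y.re _).trans ((add_le_add ((Complex.abs_re_le_norm (z - y)).trans hz) h1).trans
      (by linarith)), Complex.abs_im_le_norm (z - y)⟩
  obtain ⟨x, x1, x2, -⟩ := P097N.Root.fix (ψ := fun z => Y z - z) (m := y) (τ := t / 4)
    (by positivity) ((disc L (by linarith) (by linarith)).1.sub differentiableOn_id) fun z hz => by
      have k := (mem_ball_iff_norm.1 hz).le
      have l := abs_le.1 ((bl z k).2.trans k)
      have := (key hH H (bl z k).1 (by linarith [l.2]) (by linarith [l.1])).2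
      refine le_of_mul_le_mul_right ?_ t0
      linarith [mul_le_mul_of_nonneg_left (show 3 / 4 * t ≤ r - z.im by linarith [l.2])
        (norm_nonneg (Y z - z)), sq_nonneg t]
  have b := bl x (by linarith)
  obtain ⟨l1, l2⟩ := abs_le.1 (b.2.trans x2)
  have k := (key hH H b.1 (by linarith) (by linarith)).1
  have q := (har hH L (c := y) (R := t / 2) (by linarith) (by linarith) x2 (by linarith)).1
  have := mul_nonneg (L.pos y (by linarith) (by linarith)) t0.le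
  exact ⟨x, by linear_combination x1, x2, le_of_mul_le_mul_right (by nlinarith)
    (show 0 < r - x.im by linarith), le_of_mul_le_mul_right (by linarith) t0⟩

theorem xi (hH : S_HAR) (H : Cx r C u a τ k ξ Lw Y) {g Q : ℂ → ℂ} {C₂ ρ G t : ℝ} (C2 : 0 ≤ C₂)
    (X : LXP r g Q C u Y C₂) (u0 : 0 < u) {y : ℂ} (ht : t = r - y.im) (h1 : |y.re - ξ| ≤ τ / 2)
    (h2 : a / 4 ≤ t) (h3 : t ≤ τ) (hm : Cm r g Q y ρ G) (hG : u * G ≤ 1 / 40) :
    0 ≤ PP C u Y y / (u ^ 2 * t ^ 2) + G ^ 5 * u ^ 2 ∧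
      ‖deriv (E1 g Q) y‖ ≤ 4 * C₂ * (PP C u Y y / (u ^ 2 * t ^ 2) + G ^ 5 * u ^ 2) := by
  obtain ⟨x, rfl, x2, x3, x4⟩ := pre hH H ht h1 h2 h3
  obtain ⟨L, a0, a1, τ1, c0, c1, u1, k1, -⟩ := H
  obtain ⟨l1, l2⟩ := abs_le.1 ((Complex.abs_im_le_norm _).trans x2)
  rw [Complex.sub_im] at l1 l2
  have p := L.pos (Y x) (by linarith) (by linarith)
  have s : t ^ 2 ≤ 2 * (r - x.im) ^ 2 := by nlinarith
  have G0 : 0 ≤ G := nonneg_of_mul_nonneg_left (zero_le_one.trans hm.one) hm.pos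
  have j : PP C u Y x / (u ^ 2 * (r - x.im) ^ 2) ≤ 4 * (PP C u Y (Y x) / (u ^ 2 * t ^ 2)) := by
    have : 0 < r - x.im := by linarith
    have : 0 < t := by linarith
    rw [mul_div_assoc', div_le_div_iff₀ (by positivity) (by positivity)]
    linarith [mul_le_mul x4 (mul_le_mul_of_nonneg_left s (sq_nonneg u)) (by positivity)
      (by positivity)]
  have i2 : 0 ≤ G ^ 5 * u ^ 2 := by positivity
  refine ⟨by positivity, (X x _ ρ G rfl (by linarith) (by linarith) (by linarith) x3 hm hG).1.trans ?_⟩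
  rw [mul_comm 4, mul_assoc]
  exact mul_le_mul_of_nonneg_left (by linarith) C2

theorem lo (hH : S_HAR) (H : Cx r C u a τ k ξ Lw Y) {y : ℂ} {η : ℝ} (h3 : r - y.im ≤ τ)
    (h4 : a ≤ r - y.im) (h5 : |η - y.re| ≤ a / 4) : 0 ≤ (r - y.im) * PP C u Y (pt r η a) ∧
      PP C u Y y * a ≤ 4 * ((r - y.im) * PP C u Y (pt r η a)) := by
  obtain ⟨L, a0, a1, τ1, c0, c1, -, k1, -⟩ := H
  have q := L.pos (pt r η a) (by rw [pt_im]; linarith) (by rw [pt_im]; linarith)
  have k := (har hH L (c := y) (z := pt r η a) (R := r - y.im - a / 4) (d := r - y.im - 3 * a / 4)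
    (by linarith) (by linarith) ((nrm _ _).trans (by
      rw [pt_re, pt_im, abs_of_nonneg (a := _ - y.im) (by linarith)]; linarith)) (by linarith)).2.1
  exact ⟨mul_nonneg (by linarith) q, by linarith [mul_nonneg q a0.le]⟩

theorem blk (hS : S_SUM) (H : Cx r C u a τ k ξ Lw Y) {n : ℕ} {h η : ℝ} (e : τ = 2 * n ^ 2 * a)
    (h0 : 0 < h) (h1 : h ≤ a / 4) (hη : |η - ξ| ≤ τ) :
    ∑ i ∈ Finset.range n, PP C u Y (pt r (η + i * h) a) ≤ 16 * (2 * τ * a) / h ^ 2 * k := by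
  obtain ⟨L, a0, a1, τ1, c0, c1, -, k1, -, col⟩ := H
  have τ0 : 0 < τ := by linarith
  obtain ⟨-, d1, d2⟩ := disc L (c := pt r η (2 * τ)) (R := 2 * τ - C * u) (by rw [pt_im]; linarith)
    (by rw [pt_im]; linarith)
  have := hS _ _ (2 * τ - a / 2) _ h (2 * τ * a) η n (fun i => pt r (η + i * h) a) (by linarith) h0
    (by positivity) (by linarith) d1 d2 fun i hi => by
      have sq : ‖pt r (η + i * h) a - pt r η (2 * τ)‖ ^ 2 = (i * h) ^ 2 + (2 * τ - a) ^ 2 := by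
        rw [Complex.sq_norm, Complex.normSq_apply]
        simp only [Complex.sub_re, Complex.sub_im, pt_re, pt_im]
        ring
      have i2 : (i * h) ^ 2 ≤ τ * a / 32 := (pow_le_pow_left₀ (by positivity)
        (mul_le_mul (Nat.cast_le.2 hi.le) h1 h0.le n.cast_nonneg) 2).trans_eq (by rw [e]; ring)
      have := mul_le_mul_of_nonneg_right a1 a0.le
      refine ⟨rfl, le_sub_comm.1 ((abs_le_of_sq_le_sq' (b := 2 * τ - 3 * a / 4)
        (by rw [sq]; linarith [sq_nonneg a]) (by linarith)).2.trans (by linarith)), ?_⟩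
      rw [sq]
      linarith [sq_nonneg (i * h), sq_nonneg a]
  simp only [re_FF] at this
  exact this.trans (mul_le_mul_of_nonneg_left (col _ hη).1 (by positivity))

end Td

open Td in
theorem td (hH : S_HAR) (hS : S_SUM) : S_TD := by
  intro C C₂ C₃ lam C0 C2 C3 l0 l1
  have w : 0 ≤ 16 * (C + C₃) / lam ^ 2 := by positivity
  refine ⟨4 * C₂ + 8 * (C + C₃) + 16 * (C + C₃) / lam ^ 2, 1 / (10 ^ 5 * (C + C₃)), by linarith,
    by positivity, ?_⟩
  intro r g Q Y Lw n ξ τ M u L X hn τ0 τ1 ⟨u0, s1, s2, _⟩ hc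
  have n1 : (1 : ℝ) ≤ n := Nat.one_le_cast.2 hn
  obtain ⟨a, ha⟩ : ∃ a, a = τ / (2 * n ^ 2) := ⟨_, rfl⟩
  obtain ⟨B, hB⟩ : ∃ B, B = u + u ^ 2 * M ^ 2 / τ := ⟨_, rfl⟩
  have a0 : 0 < a := by rw [ha]; positivity
  have e : τ = 2 * n ^ 2 * a := by rw [ha]; field_simp
  have a1 : 2 * a ≤ τ := by linarith [mul_le_mul_of_nonneg_right (one_le_pow₀ (n := 2) n1) a0.le]
  have a4 : τ / (8 * n ^ 2) = a / 4 := by rw [ha]; ring
  have uB : u ≤ B := hB ▸ le_add_of_nonneg_right (by positivity)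
  have B0 := u0.trans_le uB
  have β1 : (C + C₃) * B * τ ≤ 8 / 10 ^ 5 * a ^ 2 := by
    rw [one_div_mul_eq_div, le_div_iff₀ (by positivity)] at s1 s2
    have : B * τ = u * τ + u ^ 2 * M ^ 2 := by rw [hB]; field_simp
    refine le_of_mul_le_mul_right ?_ (show (0 : ℝ) < n ^ 4 by positivity)
    rw [mul_assoc _ B, this, show 8 / 10 ^ 5 * a ^ 2 * n ^ 4 = 2 / 10 ^ 5 * τ ^ 2 by rw [e]; ring]
    linarith [mul_le_mul_of_nonneg_right s1 τ0.le]
  have c1 := mul_le_mul_of_nonneg_left uB C0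
  have c2 := mul_le_mul_of_nonneg_right C3 B0.le
  have c3 : 0 ≤ C * u := by positivity
  have c4 := mul_le_mul_of_nonneg_left a1 (show 0 ≤ (C + C₃) * B by positivity)
  rw [← hB] at hc
  have H : Cx r C u a τ ((C + C₃) * B) ξ Lw Y := ⟨L, a0, a1, τ1, c3, by linarith, by linarith,
    le_of_mul_le_mul_right (by linarith) a0, β1, fun η h => ⟨by
        have := (abs_le.1 ((Complex.abs_im_le_norm _).trans (hc η h))).1
        unfold PP
        linarith, (hc η h).trans (by linarith)⟩⟩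
  have k1 := H.k1
  refine ⟨fun y ⟨_, h2, h3⟩ => L.pos y (by linarith) (by linarith), fun y ⟨h1, h2, h3⟩ ρ G hm hG => ?_,
    fun y ⟨h1, h2, h3⟩ => ?_, fun y hy η h4 h5 => ?_, ?_⟩
  · have := xi hH H (by linarith) X u0 rfl h1 (a4 ▸ h2) h3 hm hG
    exact this.2.trans (mul_le_mul_of_nonneg_right (by linarith) this.1)
  · rw [← hB, mul_assoc]
    exact (key hH H (by linarith) (by linarith) (by linarith)).1.trans
      ((show _ = 8 * (C + C₃) * (τ * B) by ring).trans_le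
        (mul_le_mul_of_nonneg_right (by linarith) (by positivity)))
  · rw [← ha, mul_assoc]
    have := lo hH H hy.2.2 (ha ▸ h4) (a4 ▸ h5)
    exact this.2.trans (mul_le_mul_of_nonneg_right (by linarith) this.1)
  · rw [← ha, ← hB, show lam * τ / n ^ 2 = 2 * lam * a by rw [ha]; ring, sq n, mul_assoc _ _ B]
    have la := mul_le_mul_of_nonneg_right l1 a0.le
    refine (blocks _ n (fun p hp => ?_) n le_rfl).trans ((show n * (16 * (2 * τ * a) / (2 * lam * a) ^ 2 *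
      ((C + C₃) * B)) = 16 * (C + C₃) / lam ^ 2 * (n ^ 3 * B) by rw [e]; field_simp).trans_le
        (mul_le_mul_of_nonneg_right (by linarith) (by positivity)))
    refine (Finset.sum_congr rfl fun i _ => ?_).trans_le (blk hS H (η := ξ + p * n * (2 * lam * a)) e
      (by positivity) (by linarith) ?_)
    · rw [Nat.cast_add, Nat.cast_mul, add_mul, add_assoc]
    · rw [add_sub_cancel_left, abs_of_nonneg (by positivity), e]
      linarith [mul_le_mul (mul_le_mul_of_nonneg_right (Nat.cast_le.2 hp.le) (zero_le_one.trans n1))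
        (show 2 * lam * a ≤ 2 * a by linarith) (by positivity) (by positivity)]

end Vale.Agent.P097M
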