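import Vale.Agent.P097M.Asm2
import Vale.Agent.P097M.Gq0
import Vale.Agent.P097M.Tay
import Vale.Agent.P097M.Law
import Vale.Agent.P097M.Har
import Vale.Agent.P097M.Sum
import Vale.Agent.P097M.Sd
import Vale.Agent.P097M.Pos
import Vale.Agent.P097M.Base
import Vale.Agent.P097M.Lx
import Vale.Agent.P097M.Int
import Vale.Agent.P097M.Td
import Vale.Agent.P097M.Ge
import Vale.Agent.P097M.Sup
import Vale.Agent.P097M.Sumk
import Vale.Agent.P097M.Rec
import Vale.Agent.P097M.Fin

/-!
# P097M: everything but the column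
-/

set_option linter.all false

namespace Vale.Agent.P097M

open Vale.Agent.P097Top (Cur law)

theorem h2c (hC : S_COL) : Spec_H2 :=
  h2_of gq0 (lawp tay) (base pos har) (lx har sd) hC (td har psum) (supb vint ge) (sumk vint ge)
    (finm recm)

theorem supAllc (hC : S_COL) {r c : ℝ} {θ H Q : ℂ → ℂ} (K : Cur r c θ H Q) (E : Eta θ H r) :
    SupAll r (deriv θ) Q :=
  supAll_of gq0 (lawp tay) (base pos har) (lx har sd) hC (td har psum) (supb vint ge) K E

end Vale.Agent.P097M
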