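import Vale.Agent.P097M.Defs

/-!
# P097M: assembly
-/

set_option linter.all false

noncomputable section

namespace Vale.Agent.P097M

open Filter Topology Set Metric
open Vale.Agent.P097T (Strip)
open Vale.Agent.P097Top (Cur law)

theorem Cm.gpos {r ρ G : ℝ} {g Q : ℂ → ℂ} {y : ℂ} (h : Cm r g Q y ρ G) : 0 < G := by
  have := h.one
  have := h.pos
  by_contra k
  nlinarith [not_lt.1 k]

theorem TD.step {r lam C₄ ξ τ M u v : ℝ} {g Q : ℂ → ℂ} {n : ℕ} {P : ℂ → ℝ}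
    (h : TD r g Q lam C₄ n ξ τ M v P) (hC : 1 ≤ C₄) (hτ : 0 < τ) (hn : 1 ≤ n) (v0 : 0 < v)
    (v1 : u / 2 ≤ v) (v2 : v ≤ u) : TD r g Q lam (4 * C₄) n ξ τ M u P := by
  have hn' : (0 : ℝ) < n := by exact_mod_cast hn
  have u0 : 0 < u := by linarith
  have e2 : v ^ 2 ≤ u ^ 2 := by gcongr
  have eB : v + v ^ 2 * M ^ 2 / τ ≤ u + u ^ 2 * M ^ 2 / τ := by gcongr
  have B0 : 0 ≤ u + u ^ 2 * M ^ 2 / τ := by positivity
  have tp : ∀ y ∈ Tent r ξ τ (n ^ 2), 0 < r - y.im := fun y hy =>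
    lt_of_lt_of_le (by positivity) hy.2.1
  refine ⟨h.nn, fun y hy ρ G c k => ?_, fun y hy => ?_, fun y hy η a b => ?_, ?_⟩
  · have G0 := c.gpos
    have t0 := tp y hy
    have p0 := h.nn y hy
    have k1 := h.xi y hy ρ G c (le_trans (by gcongr) k)
    have k2 : P y / (v ^ 2 * (r - y.im) ^ 2) ≤ 4 * (P y / (u ^ 2 * (r - y.im) ^ 2)) := by
      rw [← mul_div_assoc, div_le_div_iff₀ (by positivity) (by positivity)]
      have : u ^ 2 ≤ 4 * v ^ 2 := by nlinarith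
      calc P y * (u ^ 2 * (r - y.im) ^ 2) ≤ P y * (4 * v ^ 2 * (r - y.im) ^ 2) := by gcongr
        _ = _ := by ring
    have k3 : G ^ 5 * v ^ 2 ≤ 4 * (G ^ 5 * u ^ 2) := by
      have : 0 ≤ G ^ 5 * u ^ 2 := by positivity
      have : G ^ 5 * v ^ 2 ≤ G ^ 5 * u ^ 2 := by gcongr
      linarith
    calc _ ≤ _ := k1
      _ ≤ C₄ * (4 * (P y / (u ^ 2 * (r - y.im) ^ 2)) + 4 * (G ^ 5 * u ^ 2)) := by gcongr
      _ = _ := by ring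
  · calc _ ≤ _ := h.up y hy
      _ ≤ 4 * C₄ * τ * (u + u ^ 2 * M ^ 2 / τ) := by gcongr; linarith
  · have k := h.lo y hy η a b
    have t0 := tp y hy
    have p0 := h.nn y hy
    have q0 : 0 ≤ C₄ * (r - y.im) * P (pt r η (τ / (2 * n ^ 2))) := le_trans (by positivity) k
    linarith
  · calc _ ≤ _ := h.sum
      _ ≤ 4 * C₄ * n ^ 3 * (u + u ^ 2 * M ^ 2 / τ) := by gcongr; linarith

theorem tda_of (hL : S_LAW) (hB : S_BASE) (hX : S_LX) (hC : S_COL) (hT : S_TD)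
    {r c lam : ℝ} {θ H Q : ℂ → ℂ} (K : Cur r c θ H Q) (G : GQ r (deriv θ) Q) (E : Eta θ H r)
    (l0 : 0 < lam) (l1 : lam ≤ 1 / 8) : ∃ C₄ c₄ u₀ : ℝ, 1 ≤ C₄ ∧ 0 < c₄ ∧ 0 < u₀ ∧
      TDA r (deriv θ) Q lam C₄ c₄ u₀ := by
  obtain ⟨C, u₀, C0, u0, E⟩ := E
  obtain ⟨CL, L1, hL⟩ := hL
  obtain ⟨C', u₁, C0', u1, hB⟩ := hB r C K.rpos C0
  obtain ⟨C₂, c2, hX⟩ := hX CL L1
  obtain ⟨C₃, c₃, c3, c3', hC⟩ := hC r C' C₂ K.rpos C0' c2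
  obtain ⟨C₄, c₄, c4, c4', hT⟩ := hT C' C₂ C₃ lam C0' c2 c3 l0 l1
  refine ⟨4 * C₄, min c₃ c₄, min u₀ u₁, by linarith, lt_min c3' c4', lt_min u0 u1,
    fun n ξ τ M u hn t0 t1 hM hc hu hs => ?_⟩
  obtain ⟨v, Y, v1, v2, Lf⟩ := E u hs.1 (hu.trans_le (min_le_left _ _))
  have v0 : 0 < v := by linarith [hs.1]
  have F := hB θ H Y v v0 (v2.trans_lt (hu.trans_le (min_le_right _ _))) Lf
  have X := hX r C' v _ Q Y _ v0 C0' (hL r c θ H Q K) F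
  have s3 := hs.mono (min_le_left _ _) t0 (by linarith) v0 v2
  have s4 := hs.mono (min_le_right _ _) t0 (by linarith) v0 v2
  have B := hC _ Q Y _ ξ τ M v G F X v0 t0 t1 hM hc s3.2.2.2
  exact ⟨_, (hT r _ Q Y _ n ξ τ M v F X hn t0 t1 s4 B).step c4 t0 hn v0 v1 v2⟩

theorem h2_of (h0 : S_GQ0) (hL : S_LAW) (hB : S_BASE) (hX : S_LX) (hC : S_COL) (hT : S_TD)
    (hS : S_SUP) (hK : S_SUMK) (hF : S_FIN) : Spec_H2 := by
  intro r c θ H Q K E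
  have G := h0 r c θ H Q K
  have hr := K.rpos
  obtain ⟨n₀, hn⟩ := exists_nat_ge (8 / r)
  have h8 : 8 ≤ r * n₀ := by rwa [div_le_iff₀' hr] at hn
  have l0 : 0 < 1 / (r * n₀) := by positivity
  have l1 : 1 / (r * n₀) ≤ 1 / 8 := one_div_le_one_div_of_le (by norm_num) h8
  obtain ⟨C₄, c₄, u₀, c4, c4', u0, A⟩ := tda_of hL hB hX hC hT K G E l0 l1
  obtain ⟨C₁, c1, hS⟩ := hS C₄ c₄ c4 c4'
  refine hF r _ Q n₀ G h8 ⟨C₁, c1, fun ε e0 => ?_⟩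
  obtain ⟨L, A₂, L1, hK⟩ := hK C₄ c₄ C₁ ε c4 c4' c1 e0
  obtain ⟨A₁, hS⟩ := hS (2 ^ L) Nat.one_le_two_pow
  refine ⟨L, max A₁ A₂, min (r / 4) u₀, L1, lt_min (by positivity) u0,
    fun ξ τ M t0 t1 hM hc => ?_⟩
  have a := t1.trans (min_le_left _ _)
  have b := t1.trans (min_le_right _ _)
  have s := hS r _ u₀ ξ τ M _ Q G A t0 a b ((le_max_left _ _).trans hM) hc
  exact ⟨s, hK r _ u₀ ξ τ M _ Q G l0 l1 A t0 a b ((le_max_right _ _).trans hM) hc s⟩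

end Vale.Agent.P097M
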