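import Vale.Agent.P097M.Asm
import Vale.Agent.P097S.MbDefs

/-!
# P097M: the pointwise output
-/

set_option linter.all false

noncomputable section

namespace Vale.Agent.P097M

open Vale.Agent.P097Top (Cur law)

theorem supAll_of (h0 : S_GQ0) (hL : S_LAW) (hB : S_BASE) (hX : S_LX) (hC : S_COL) (hT : S_TD)
    (hS : S_SUP) {r c : ℝ} {θ H Q : ℂ → ℂ} (K : Cur r c θ H Q) (E : Eta θ H r) :
    SupAll r (deriv θ) Q := by
  have G := h0 r c θ H Q K
  have hr := K.rpos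
  obtain ⟨C₄, c₄, u₀, c4, c4', u0, A⟩ :=
    tda_of hL hB hX hC hT (lam := 1 / 8) K G E (by norm_num) le_rfl
  obtain ⟨C₁, c1, hS⟩ := hS C₄ c₄ c4 c4'
  refine ⟨C₁, min (r / 4) u₀, lt_min (by positivity) u0, fun n hn => ?_⟩
  obtain ⟨A₁, hS⟩ := hS n hn
  exact ⟨A₁, fun ξ τ M t0 t1 hM hc => hS r _ u₀ ξ τ M _ Q G A t0 (t1.trans (min_le_left _ _))
    (t1.trans (min_le_right _ _)) hM hc⟩

end Vale.Agent.P097M
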