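import Vale.Agent.P097M.Defs

/-!
# P097M: the column (row 1211)
-/

set_option linter.all false

noncomputable section

namespace Vale.Agent.P097M

open Filter Topology Set Metric
open Vale.Agent.P097T (Strip)

namespace Co2

theorem down {f : ℝ → ℝ} {a b B : ℝ} (ab : a ≤ b) (c : ∀ t ∈ Icc a b, ContinuousAt f t)
    (hb : f b ≤ B) (st : ∀ t ∈ Icc a b, (∀ s ∈ Icc t b, f s ≤ B) → f t < B) : f a ≤ B := by
  have c' : ∀ v ∈ Icc (-b) (-a), ContinuousAt (fun v => f (-v)) v := fun v hv =>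
    (c (-v) ⟨by linarith [hv.2], by linarith [hv.1]⟩).comp continuous_neg.continuousAt
  have := IsClosed.Icc_subset_of_forall_mem_nhdsGT_of_Icc_subset (a := -b) (b := -a)
    (s := {v | f (-v) ≤ B}) (by
      rw [inter_comm]
      exact (continuousOn_of_forall_continuousAt c').preimage_isClosed_of_isClosed isClosed_Icc
        (isClosed_Iic (a := B))) (by simpa using hb) fun t ht h =>
      mem_nhdsWithin_of_mem_nhds (((c' t ⟨ht.1, ht.2.le⟩).eventually_lt continuousAt_const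
        (st (-t) ⟨by linarith [ht.2], by linarith [ht.1]⟩ fun s hs => by
          simpa using h (show -s ∈ Icc (-b) t from ⟨by linarith [hs.2], by linarith [hs.1]⟩))).mono
            fun v hv => le_of_lt hv)
  simpa using this (show -a ∈ Icc (-b) (-a) from ⟨by linarith, le_rfl⟩)

theorem lsq {a b : ℝ} (h : a ^ 2 ≤ b ^ 2) (hb : 0 ≤ b) : a ≤ b := (abs_le_of_sq_le_sq' h hb).2

theorem mem {r η s T : ℝ} (a : -T < r - s) (b : r - s < T) : pt r η s ∈ Strip T := abs_lt.2 ⟨a, b⟩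

/-- the inverse square root -/
def R (s : ℝ) : ℝ := (√s)⁻¹

theorem R_pos {s : ℝ} (h : 0 < s) : 0 < R s := inv_pos.2 (Real.sqrt_pos.2 h)

theorem R_sq {s : ℝ} (h : 0 < s) : s * R s ^ 2 = 1 := by
  rw [R, inv_pow, Real.sq_sqrt h.le, mul_inv_cancel₀ h.ne']

theorem R_anti {s t : ℝ} (h : 0 < s) (k : s ≤ t) : R t ≤ R s :=
  inv_anti₀ (Real.sqrt_pos.2 h) (Real.sqrt_le_sqrt k)

theorem R_der {s : ℝ} (h : 0 < s) : HasDerivAt R (-(R s ^ 3) / 2) s := by
  have := (Real.hasDerivAt_sqrt h.ne').inv (Real.sqrt_pos.2 h).ne'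
  refine this.congr_deriv ?_
  have := (Real.sqrt_pos.2 h).ne'
  unfold R
  field_simp

variable {r C C₂ ξ τ M u B e : ℝ} {g Q Y : ℂ → ℂ} {Lw : ℂ → ℂ → ℂ → Prop}

/-- the calm disc round the image of a point of the column -/
theorem calm (τ0 : 0 < τ) (M1 : 1 ≤ M) (K : Cone r g Q ξ τ M) {η t : ℝ} {y : ℂ}
    (hη : |η - ξ| ≤ τ) (t1 : 2 * τ ≤ t) (t2 : t ≤ r / 2) (hy : ‖y - pt r η t‖ ≤ τ / 8) :
    Cm r g Q y (t / 4) (√(16 * M ^ 2 * R τ * R t ^ 3)) := by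
  have t0 : 0 < t := by linarith
  have a0 := R_pos τ0
  have q0 := R_pos t0
  have qa := R_anti τ0 (show τ ≤ t by linarith)
  have geo : ∀ z ∈ ball y (t / 4), |z.re - η| ≤ t / 2 ∧ |z.im - (r - t)| ≤ t / 2 := fun z hz => by
    have : ‖z - pt r η t‖ ≤ t / 2 := by
      linarith [norm_sub_le_norm_sub_add_norm_sub z y (pt r η t), mem_ball_iff_norm.1 hz]
    exact ⟨(Complex.abs_re_le_norm (z - pt r η t)).trans this,
      (Complex.abs_im_le_norm (z - pt r η t)).trans this⟩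
  refine ⟨by linarith, fun z hz => ?_, fun z hz => ?_, ?_⟩
  · obtain ⟨-, k⟩ := geo z hz
    rw [abs_le] at k
    exact (abs_lt (a := z.im)).2 ⟨by linarith, by linarith⟩
  · obtain ⟨k1, k⟩ := geo z hz
    rw [abs_le] at k
    have k2 := K z (by linarith) (by linarith) (by linarith [abs_sub_le z.re η ξ])
    rw [Real.sq_sqrt (by positivity)]
    obtain ⟨s, hs⟩ : ∃ s, s = r - z.im := ⟨_, rfl⟩
    rw [← hs] at k2
    have s1 : t / 2 ≤ s := by linarith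
    have s0 : 0 < s := by linarith
    have k3 : Gs g Q z ^ 2 * s ^ 3 * τ ≤ M ^ 4 := le_of_mul_le_mul_right (by linarith) s0
    have k4 : Gs g Q z ^ 2 * (t / 2) ^ 3 * τ ≤ M ^ 4 := le_trans (by gcongr) k3
    have k5 := mul_le_mul_of_nonneg_right k4 (show 0 ≤ 8 * (R τ ^ 2 * R t ^ 6) by positivity)
    have k6 : Gs g Q z ^ 2 * (t / 2) ^ 3 * τ * (8 * (R τ ^ 2 * R t ^ 6)) =
      Gs g Q z ^ 2 * (t * R t ^ 2) ^ 3 * (τ * R τ ^ 2) := by ring
    rw [k6, R_sq t0, R_sq τ0] at k5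
    refine lsq ?_ (by positivity)
    nlinarith [show 0 ≤ M ^ 4 * (R τ ^ 2 * R t ^ 6) by positivity]
  · have h1 : (4 / t) ^ 2 ≤ 16 * M ^ 2 * R τ * R t ^ 3 := by
      have e : (4 / t) ^ 2 = 16 * 1 * R t * R t ^ 3 := by
        have := R_sq t0
        field_simp
        linear_combination (-16 * (1 + t * R t ^ 2)) * this
      rw [e]
      gcongr
      exact one_le_pow₀ M1
    have := Real.le_sqrt_of_sq_le h1
    rw [div_le_iff₀ t0] at this
    linarith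

/-- the bound of the second derivative -/
theorem sec (D : GQ r g Q) (X : LXP r g Q C u Y C₂) (C1 : 1 ≤ C₂) (C0 : 0 ≤ C) (u0 : 0 < u)
    (τ0 : 0 < τ) (M1 : 1 ≤ M) (K : Cone r g Q ξ τ M) (e0 : 0 < e) (e1 : e ≤ 1 / 160)
    (hu : u ^ 2 * M ^ 3 ≤ e ^ 2 * τ ^ 2) (hB : C * u + B ≤ τ / 16) {η t : ℝ}
    (hη : |η - ξ| ≤ τ) (t1 : 2 * τ ≤ t) (t2 : t ≤ r / 2) (hy : ‖Y (pt r η t) - pt r η t‖ ≤ B) :
    ‖deriv (deriv Y) (pt r η t)‖ ≤ 144 * C₂ * u ^ 2 * M ^ 2 * R τ * R t ^ 5 +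
      C₂ * u ^ 2 * (C * u + B) * R t ^ 8 := by
  have t0 : 0 < t := by linarith
  have a0 := R_pos τ0
  have q0 := R_pos t0
  have qa := R_anti τ0 (show τ ≤ t by linarith)
  have ea := R_sq τ0
  have eq := R_sq t0
  have B0 : 0 ≤ B := (norm_nonneg _).trans hy
  have Cu : 0 ≤ C * u := by positivity
  have cm := calm τ0 M1 K hη t1 t2 (hy.trans (by linarith))
  have G2 : √(16 * M ^ 2 * R τ * R t ^ 3) ^ 2 = 16 * M ^ 2 * R τ * R t ^ 3 :=
    Real.sq_sqrt (by positivity)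
  have G0 := Real.sqrt_nonneg (16 * M ^ 2 * R τ * R t ^ 3)
  generalize √(16 * M ^ 2 * R τ * R t ^ 3) = G at cm G2 G0
  generalize R τ = a at *
  generalize R t = q at *
  have h3 : u ^ 2 * M ^ 3 * a ^ 4 ≤ e ^ 2 := by
    have := mul_le_mul_of_nonneg_right hu (show 0 ≤ a ^ 4 by positivity)
    rwa [show e ^ 2 * τ ^ 2 * a ^ 4 = e ^ 2 * (τ * a ^ 2) ^ 2 by ring, ea, one_pow, mul_one] at this
  have e2 : e ^ 2 ≤ (1 / 160) ^ 2 := by gcongr
  have uG : u * G ≤ 1 / 40 := by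
    refine lsq ?_ (by norm_num)
    have : u ^ 2 * M ^ 2 * (a * q ^ 3) ≤ u ^ 2 * M ^ 3 * (a * a ^ 3) := by
      gcongr
      norm_num
    rw [mul_pow, G2]
    nlinarith
  have ut : u ≤ τ / 160 := by
    refine lsq ?_ (by positivity)
    have : u ^ 2 * 1 ≤ u ^ 2 * M ^ 3 := by gcongr; exact one_le_pow₀ M1
    nlinarith [mul_le_mul_of_nonneg_right e2 (sq_nonneg τ)]
  have P : PP C u Y (pt r η t) ≤ C * u + B := by
    have := (abs_le.1 ((Complex.abs_im_le_norm _).trans hy)).1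
    unfold PP
    linarith
  have x2 := (X (pt r η t) t (t / 4) G (by simp) (by linarith) (by linarith) (by linarith)
    (by linarith) cm uG).2
  have dE : ‖deriv (E1 g Q) (Y (pt r η t))‖ ≤ 8 * G ^ 2 * q ^ 2 := by
    have b : ∀ z ∈ ball (Y (pt r η t)) (t / 4), ‖E1 g Q z‖ ≤ G ^ 2 := fun z hz => by
      refine le_trans ((norm_add_le _ _).trans ?_) (cm.bd z hz)
      rw [norm_div, norm_pow, Gs]
      norm_num
      linarith [sq_nonneg ‖g z‖]
    have := Complex.norm_deriv_le_div_of_mapsTo_ball (f := E1 g Q) (R₂ := 2 * G ^ 2)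
      (((D.dQ.add ((D.dg.pow 2).div_const 8)).mono cm.sub)) (fun z hz => mem_closedBall_iff_norm.2
        ((norm_sub_le _ _).trans (by linarith [b z hz, b _ (mem_ball_self cm.pos)]))) cm.pos
    refine this.trans_eq ?_
    field_simp
    linear_combination (-8 * G ^ 2) * eq
  have g3 : G ^ 3 * u ^ 2 ≤ q ^ 2 := by
    refine lsq ?_ (by positivity)
    have h4 : (u ^ 2 * M ^ 3 * a ^ 4) ^ 2 ≤ ((1 / 160) ^ 2) ^ 2 := by
      gcongr
      exact h3.trans e2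
    have h5 : (G ^ 3 * u ^ 2) ^ 2 = 16 ^ 3 * ((u ^ 2 * M ^ 3) ^ 2 * a ^ 3 * q ^ 5) * q ^ 4 := by
      rw [show (G ^ 3 * u ^ 2) ^ 2 = (G ^ 2) ^ 3 * u ^ 4 by ring, G2]
      ring
    have h6 : (u ^ 2 * M ^ 3) ^ 2 * a ^ 3 * q ^ 5 ≤ (u ^ 2 * M ^ 3) ^ 2 * a ^ 3 * a ^ 5 := by gcongr
    have h7 : 16 ^ 3 * ((u ^ 2 * M ^ 3) ^ 2 * a ^ 3 * q ^ 5) ≤ 1 := by nlinarith
    rw [h5]
    nlinarith [mul_le_mul_of_nonneg_right h7 (show 0 ≤ q ^ 4 by positivity)]
  have g5 : G ^ 5 * u ^ 4 ≤ u ^ 2 * G ^ 2 * q ^ 2 := by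
    have := mul_le_mul_of_nonneg_left g3 (show 0 ≤ u ^ 2 * G ^ 2 by positivity)
    linarith [show G ^ 5 * u ^ 4 = u ^ 2 * G ^ 2 * (G ^ 3 * u ^ 2) by ring]
  have p4 : u ^ 2 * PP C u Y (pt r η t) / t ^ 4 ≤ u ^ 2 * (C * u + B) * q ^ 8 := by
    rw [div_le_iff₀ (by positivity), show u ^ 2 * (C * u + B) * q ^ 8 * t ^ 4 =
      u ^ 2 * (C * u + B) * (t * q ^ 2) ^ 4 by ring, eq, one_pow, mul_one]
    gcongr
  have d2 := mul_le_mul_of_nonneg_left dE (sq_nonneg u)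
  refine x2.trans ((mul_le_mul_of_nonneg_left (add_le_add (add_le_add d2 g5) p4)
    (by linarith)).trans_eq ?_)
  rw [G2]
  ring

/-- two integrations -/
theorem twice (hI : S_INT) (F : LF r C u Lw Y) {K₁ K₂ η t : ℝ} (k1 : 0 ≤ K₁) (k2 : 0 ≤ K₂)
    (t0 : 0 < t) (t2 : t ≤ r / 2) (Cu : C * u < t)
    (H : ∀ s ∈ Icc t (r / 2), ‖deriv (deriv Y) (pt r η s)‖ ≤ K₁ * R s ^ 5 + K₂ * R s ^ 8) :
    ‖Y (pt r η t) - pt r η t‖ ≤ C * u * (1 + r / 2) + 2 * K₁ * R t + K₂ * R t ^ 4 / 2 := by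
  have o : IsOpen (Strip (r - C * u)) := isOpen_lt (by fun_prop) continuous_const
  have m : ∀ s ∈ Icc t (r / 2), Strip (r - C * u) ∈ 𝓝 (pt r η s) := fun s hs => o.mem_nhds
    (mem (by linarith [hs.1, hs.2]) (by linarith [hs.1]))
  obtain ⟨b1, b2⟩ := F.base η
  have C0 : 0 ≤ C * u := (norm_nonneg _).trans b1
  have r0 := R_pos (show 0 < r / 2 by linarith)
  have d1 : ∀ s ∈ Icc t (r / 2), ‖deriv Y (pt r η s) - 1‖ ≤ C * u + K₁ * R s ^ 3 + K₂ * R s ^ 6 :=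
    fun s hs => by
      have s0 := R_pos (t0.trans_le hs.1)
      have := hI (deriv Y) r η s (r / 2) (fun v => -(2 / 3 * K₁ * R v ^ 3) - 1 / 3 * K₂ * R v ^ 6)
        (fun v => K₁ * R v ^ 5 + K₂ * R v ^ 8) hs.2 fun v hv => by
          have hv' : v ∈ Icc t (r / 2) := ⟨hs.1.trans hv.1, hv.2⟩
          have d := R_der (t0.trans_le hv'.1)
          refine ⟨(F.d.deriv o).differentiableAt (m v hv'), ?_, H v hv'⟩
          refine (((d.fun_pow 3).const_mul (2 / 3 * K₁)).fun_neg.fun_sub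
            ((d.fun_pow 6).const_mul (1 / 3 * K₂))).congr_deriv ?_
          norm_num
          ring
      have n := norm_sub_le_norm_sub_add_norm_sub (deriv Y (pt r η s)) (deriv Y (pt r η (r / 2))) 1
      have p1 : 0 ≤ K₁ * R s ^ 3 := by positivity
      have p2 : 0 ≤ K₂ * R s ^ 6 := by positivity
      have p3 : 0 ≤ K₁ * R (r / 2) ^ 3 := by positivity
      have p4 : 0 ≤ K₂ * R (r / 2) ^ 6 := by positivity
      linarith
  have := hI (fun z => Y z - z) r η t (r / 2) (fun v => C * u * v - 2 * K₁ * R v - K₂ / 2 * R v ^ 4)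
    (fun v => C * u + K₁ * R v ^ 3 + K₂ * R v ^ 6) t2 fun v hv => by
      have d := R_der (t0.trans_le hv.1)
      have dY := F.d.differentiableAt (m v hv)
      refine ⟨dY.sub differentiableAt_id, ?_, ?_⟩
      · refine ((((hasDerivAt_id' v).const_mul (C * u)).fun_sub (d.const_mul (2 * K₁))).fun_sub
          ((d.fun_pow 4).const_mul (K₂ / 2))).congr_deriv ?_
        norm_num
        ring
      · rw [(dY.hasDerivAt.fun_sub (hasDerivAt_id' _)).deriv]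
        exact d1 v hv
  have n := norm_sub_le_norm_sub_add_norm_sub (Y (pt r η t) - pt r η t)
    (Y (pt r η (r / 2)) - pt r η (r / 2)) 0
  simp only [sub_zero] at n
  have p1 : 0 ≤ K₁ * R (r / 2) := by positivity
  have p2 : 0 ≤ K₂ * R (r / 2) ^ 4 := by positivity
  have p3 : 0 ≤ C * u * t := by positivity
  linarith

end Co2

open Co2 in
theorem col2 (hI : S_INT) : S_COL := by
  intro r C C₂ r0 C0 C1
  obtain ⟨C₃, h3⟩ : ∃ C₃, C₃ = 2 * (C * (2 + r) + 288 * C₂) + 1 := ⟨_, rfl⟩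
  have Cr : 0 ≤ C * r := by positivity
  have c3 : 1 ≤ C₃ := by linarith
  obtain ⟨e, he⟩ : ∃ e, e = 1 / (160 * (C + 2 * C₃ + C₂ + 1)) := ⟨_, rfl⟩
  have e0 : 0 < e := by rw [he]; positivity
  have e1 : e * (160 * (C + 2 * C₃ + C₂ + 1)) = 1 := by rw [he]; field_simp
  have eC : 0 ≤ e * C := by positivity
  have eC3 : 0 ≤ e * C₃ := by positivity
  have eC2 : 0 ≤ e * C₂ := by positivity
  have e2 : e ≤ 1 / 160 := by linarith
  have e3 : e * C₂ * e ≤ 1 / 2 * 1 := mul_le_mul (by linarith) (by linarith) e0.le (by norm_num)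
  have e4 : e ^ 2 ≤ e := by nlinarith
  have b3 : e * C + 2 * (e * C₃) ≤ 1 / 16 := by linarith
  have q1 : C * (5 / 4 + r / 2) < 3 / 4 * C₃ := by linarith
  have q2 : 288 * C₂ ≤ 3 / 4 * C₃ := by linarith
  clear e1 he h3 eC eC3 eC2
  refine ⟨C₃, e ^ 2, c3, by positivity, fun g Q Y Lw ξ τ M u D F X u0 τ0 τr M1 K hu η hη => ?_⟩
  have a0 := R_pos τ0
  have ea := R_sq τ0
  have m2 : u ^ 2 * M ^ 2 ≤ e ^ 2 * τ ^ 2 := le_trans (by
    gcongr
    norm_num) hu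
  have m0 : u ^ 2 ≤ e ^ 2 * τ ^ 2 := le_trans (le_mul_of_one_le_right (sq_nonneg u)
    (one_le_pow₀ M1)) m2
  have ue : u ≤ e * τ := lsq (by rwa [mul_pow]) (by positivity)
  obtain ⟨w, hw⟩ : ∃ w, w = u ^ 2 * M ^ 2 / τ := ⟨_, rfl⟩
  have w0 : 0 ≤ w := by rw [hw]; positivity
  have we : w ≤ e * τ := by
    rw [hw, div_le_iff₀ τ0]
    linarith [mul_le_mul_of_nonneg_right e4 (sq_nonneg τ)]
  have wa : u ^ 2 * M ^ 2 * R τ ^ 2 = w := by
    rw [hw, eq_div_iff τ0.ne']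
    linear_combination u ^ 2 * M ^ 2 * ea
  rw [← hw]
  have hB : C * u + C₃ * (u + w) ≤ τ / 16 := by
    have b1 : C * u ≤ C * (e * τ) := by gcongr
    have b2 : C₃ * (u + w) ≤ C₃ * (e * τ + e * τ) := by gcongr
    linarith [mul_le_mul_of_nonneg_right b3 τ0.le]
  have Cu : 0 ≤ C * u := by positivity
  have B0 : 0 ≤ C₃ * (u + w) := by positivity
  have o : IsOpen (Strip (r - C * u)) := isOpen_lt (by fun_prop) continuous_const
  have cp : Continuous (pt r η) := by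
    rw [show pt r η = fun s : ℝ => η + ((r : ℂ) - s) * Complex.I from funext (pt_eq r η)]
    fun_prop
  have big : C * (5 / 4 + r / 2) * u + 288 * C₂ * w < 3 / 4 * (C₃ * (u + w)) := by
    linarith [mul_lt_mul_of_pos_right q1 u0, mul_le_mul_of_nonneg_right q2 w0]
  refine down (f := fun t => ‖Y (pt r η t) - pt r η t‖) (b := r / 2) (by linarith)
    (fun t ht => ?_) ((F.base η).1.trans ?_) fun t ht H => ?_
  · exact ((ContinuousAt.comp (F.d.continuousOn.continuousAt (o.mem_nhds (mem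
      (by linarith [ht.1, ht.2]) (by linarith [ht.1])))) cp.continuousAt).sub cp.continuousAt).norm
  · linarith [mul_nonneg Cr u0.le, mul_nonneg (show 0 ≤ C₂ by linarith) w0]
  · have t0 : 0 < t := by linarith [ht.1]
    have q0 := R_pos t0
    have qa := R_anti τ0 (show τ ≤ t by linarith [ht.1])
    have T := twice hI F (K₁ := 144 * C₂ * u ^ 2 * M ^ 2 * R τ)
      (K₂ := C₂ * u ^ 2 * (C * u + C₃ * (u + w))) (by positivity) (by positivity) t0 ht.2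
      (by linarith [ht.1]) fun s hs => sec D X C1 C0 u0 τ0 M1 K e0 e2 hu hB hη
        (ht.1.trans hs.1) hs.2 (H s hs)
    have T1 : 2 * (144 * C₂ * u ^ 2 * M ^ 2 * R τ) * R t ≤ 288 * C₂ * w := by
      rw [← wa]
      have : 2 * (144 * C₂ * u ^ 2 * M ^ 2 * R τ) * R t ≤
        2 * (144 * C₂ * u ^ 2 * M ^ 2 * R τ) * R τ := by gcongr
      linarith
    have T2 : C₂ * u ^ 2 * R t ^ 4 ≤ 1 / 2 := by
      calc _ ≤ C₂ * (e ^ 2 * τ ^ 2) * R τ ^ 4 := by gcongr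
        _ = e * C₂ * e * (τ * R τ ^ 2) ^ 2 := by ring
        _ ≤ 1 / 2 := by rw [ea]; linarith
    have T3 := mul_le_mul_of_nonneg_right T2 (add_nonneg Cu B0)
    exact T.trans_lt (by linarith)

end Vale.Agent.P097M
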